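import Vale.Agent.P253W.Y.G.Defs
import Vale.Agent.P272.GJ.Green

/-!
# P253W, block Y: the mean value inequality with an error
-/

open scoped Real
open MeasureTheory Set Metric Complex Vale.Agent.P272.GJ

noncomputable section

namespace Vale.Agent.P253W.Y.G

theorem cp_rot (L : ℂ →L[ℝ] ℂ) (θ : ℝ) :
    ‖L (exp (θ * I)) + I * L (I * exp (θ * I))‖ = ‖L 1 + I * L I‖ := by
  have h1 : exp (θ * I) = Real.cos θ • (1 : ℂ) + Real.sin θ • I := by simp [exp_mul_I]
  have h2 : I * exp (θ * I) = (-Real.sin θ) • (1 : ℂ) + Real.cos θ • I := by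
    rw [h1]
    simp only [real_smul, ofReal_neg]
    linear_combination (Real.sin θ : ℂ) * I_mul_I
  have h3 : L (exp (θ * I)) + I * L (I * exp (θ * I)) = exp ((-θ : ℝ) * I) * (L 1 + I * L I) := by
    rw [h2, h1, exp_mul_I, ← ofReal_cos, ← ofReal_sin, Real.cos_neg, Real.sin_neg]
    simp only [map_add, map_smul]
    simp only [real_smul, ofReal_neg]
    linear_combination (Real.sin θ : ℂ) * L I * I_mul_I
  rw [h3, norm_mul, norm_exp_ofReal_mul_I, one_mul]

theorem cp : CP := fun g ρ A hρ h => by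
  have hπ := Real.pi_pos
  have hpi : -π ≤ π := by linarith
  have c0 : ContinuousOn g (closedBall 0 ρ) := fun z hz => (h z hz).1.continuousAt.continuousWithinAt
  have c1 := contOn_pt_prod (g := fderiv ℝ g) (r := ρ) fun z hz =>
    ((h z hz).1.fderiv_right (m := 0) (by norm_num)).continuousAt.continuousWithinAt
  have c2 := contOn_pt_prod c0
  have dg := fun r θ (h0 : 0 ≤ r) (h1 : r ≤ ρ) =>
    ((h _ (pt_mem h0 h1 θ)).1.differentiableAt one_ne_zero).hasFDerivAt
  let F : ℝ × ℝ → ℂ := fun p => (ρ ^ 2 - p.1 ^ 2) * fderiv ℝ g (pt p.1 p.2) (exp (p.2 * I))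
  let G : ℝ × ℝ → ℂ := fun p => (ρ ^ 2 - p.1 ^ 2) * fderiv ℝ g (pt p.1 p.2) (I * exp (p.2 * I))
  let H : ℝ × ℝ → ℂ := fun p => p.1 • g (pt p.1 p.2)
  have cF : ContinuousOn F (Icc 0 ρ ×ˢ Icc (-π) π) :=
    ContinuousOn.mul (by fun_prop) (c1.clm_apply (by fun_prop))
  have cG : ContinuousOn G (Icc 0 ρ ×ˢ Icc (-π) π) :=
    ContinuousOn.mul (by fun_prop) (c1.clm_apply (by fun_prop))
  have cH : ContinuousOn H (Icc 0 ρ ×ˢ Icc (-π) π) := continuousOn_fst.smul c2
  have it : ∀ {f : ℝ × ℝ → ℂ}, ContinuousOn f (Icc 0 ρ ×ˢ Icc (-π) π) →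
      IntegrableOn f (Ioo 0 ρ ×ˢ Ioo (-π) π) (volume.prod volume) := fun hf =>
    (hf.integrableOn_compact (isCompact_Icc.prod isCompact_Icc)).mono_set
      (prod_mono Ioo_subset_Icc_self Ioo_subset_Icc_self)
  have z1 : ∫ p in Ioo 0 ρ ×ˢ Ioo (-π) π, (F p - 2 * H p) ∂volume.prod volume =
      -(2 * π * ρ ^ 2 * g 0) := by
    have i := it (cF.sub (continuousOn_const (c := 2).mul cH))
    rw [← setIntegral_prod_swap, setIntegral_prod _ (by
      unfold IntegrableOn at i ⊢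
      rw [← Measure.prod_restrict] at i ⊢
      exact i.swap), setIntegral_congr_fun measurableSet_Ioo (g := fun _ => -(ρ ^ 2 * g 0))
      fun θ hθ => ?_]
    · rw [setIntegral_const, Real.volume_real_Ioo_of_le hpi, real_smul]
      push_cast
      ring
    have := intervalIntegral.integral_eq_sub_of_hasDerivAt (a := 0) (b := ρ)
      (f := fun r : ℝ => ((ρ : ℂ) ^ 2 - r ^ 2) * g (pt r θ))
      (f' := fun r => F (r, θ) - 2 * H (r, θ)) (fun r hr => ?_) ?_
    · rw [intervalIntegral.integral_of_le hρ.le, integral_Ioc_eq_integral_Ioo] at this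
      simpa [pt] using this
    · rw [uIcc_of_le hρ.le] at hr
      refine ((((ofRealCLM.hasDerivAt (x := r)).fun_pow 2).const_sub _).mul
        ((dg r θ hr.1 hr.2).comp_hasDerivAt r (hasDerivAt_pt r θ))).congr_deriv ?_
      simp [F, H]
      ring
    · exact ((cF.sub (continuousOn_const (c := 2).mul cH)).comp (f := fun r => (r, θ))
        (by fun_prop) fun r hr => ⟨hr, Ioo_subset_Icc_self hθ⟩).intervalIntegrable_of_Icc hρ.le
  have z2 : ∫ p in Ioo 0 ρ ×ˢ Ioo (-π) π, G p ∂volume.prod volume = 0 := by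
    rw [setIntegral_prod _ (it cG), setIntegral_congr_fun measurableSet_Ioo (g := fun _ => 0)
      fun r hr => ?_, integral_zero]
    have r0 : (r : ℂ) ≠ 0 := ofReal_ne_zero.2 hr.1.ne'
    have := intervalIntegral.integral_eq_sub_of_hasDerivAt (a := -π) (b := π)
      (f := fun θ : ℝ => ((ρ : ℂ) ^ 2 - r ^ 2) / r * g (pt r θ)) (f' := fun θ => G (r, θ))
      (fun θ _ => ?_) ?_
    · rw [intervalIntegral.integral_of_le hpi, integral_Ioc_eq_integral_Ioo] at this
      simpa [pt, exp_neg] using this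
    · refine (((dg r θ hr.1.le hr.2.le).comp_hasDerivAt θ (hasDerivAt_pt' r θ)).const_mul
        _).congr_deriv ?_
      rw [← real_smul, map_smul, real_smul, ← mul_assoc, div_mul_cancel₀ _ r0]
    · exact (cG.comp (f := fun θ => (r, θ)) (by fun_prop) fun θ hθ =>
        ⟨Ioo_subset_Icc_self hr, hθ⟩).intervalIntegrable_of_Icc hpi
  have z3 : ∫ p in Ioo 0 ρ ×ˢ Ioo (-π) π, H p ∂volume.prod volume = ∫ τ in ball (0 : ℂ) ρ, g τ :=
    (setIntegral_ball_polar g ρ).symm
  have b : ‖∫ p in Ioo 0 ρ ×ˢ Ioo (-π) π, (F p + I * G p) ∂volume.prod volume‖ ≤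
      ρ ^ 2 * A * (ρ * (2 * π)) := by
    refine (norm_setIntegral_le_of_norm_le_const (C := ρ ^ 2 * A) (by simp [ENNReal.mul_lt_top])
      fun p hp => ?_).trans_eq ?_
    · rw [show F p + I * G p = ((ρ ^ 2 - p.1 ^ 2 : ℝ) : ℂ) * (fderiv ℝ g (pt p.1 p.2) (exp (p.2 * I))
        + I * fderiv ℝ g (pt p.1 p.2) (I * exp (p.2 * I))) by simp only [F, G]; push_cast; ring,
        norm_mul, cp_rot, norm_real, Real.norm_of_nonneg (by nlinarith [hp.1.1, hp.1.2])]
      exact mul_le_mul (by nlinarith) (h _ (pt_mem hp.1.1.le hp.1.2.le _)).2 (norm_nonneg _)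
        (by positivity)
    · rw [measureReal_prod_prod, Real.volume_real_Ioo_of_le hpi, Real.volume_real_Ioo_of_le hρ.le]
      ring
  rw [integral_sub (it cF) ((it cH).const_mul 2), integral_const_mul, z3] at z1
  rw [integral_add (it cF) ((it cG).const_mul I), integral_const_mul, z2, mul_zero, add_zero] at b
  have e : ‖(2 * π * ρ ^ 2 * g 0 : ℂ)‖ ≤ 2 * (∫ τ in ball (0 : ℂ) ρ, ‖g τ‖)
      + ρ ^ 2 * A * (ρ * (2 * π)) := by
    rw [← norm_neg, ← z1, add_comm]
    refine (norm_sub_le _ _).trans (add_le_add b ?_)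
    rw [norm_mul, norm_ofNat]
    exact mul_le_mul_of_nonneg_left (norm_integral_le_integral_norm _) zero_le_two
  simp only [norm_mul, norm_pow, norm_real, norm_ofNat, Real.norm_of_nonneg hπ.le,
    Real.norm_of_nonneg hρ.le] at e
  rw [← sub_le_iff_le_add, inv_mul_eq_div, le_div_iff₀ (by positivity)]
  nlinarith

end Vale.Agent.P253W.Y.G
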