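import Vale.Agent.P253W.Y.G.Defs
import Vale.Agent.P253W.X.Mat
import Vale.Agent.P253W.V.Lfc

/-!
# P253W, block Y, row CUR: the pointwise identities for the connection and the curvature
-/

open scoped ContDiff Topology ComplexConjugate ComplexOrder Matrix
open Set Filter Vale.Agent.P253Z
open Vale.Agent.P272.K (Cm dz)
open Vale.Agent.P272.K.C2 (DM DMb RM MC)
open Vale.Agent.P253W.X (MS dM Gam Rt DXb dM_sum dM_smul dM_eq dM_mul dM_inv dM_comp fd_vecMul
  fd_comp fd_hf_cov Gam_symm Gam_add Gam_rsmul Gam_met hf_mul_left)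

noncomputable section

namespace Vale.Agent.P253W.Y.G

namespace Cu

variable {n : ℕ} {W : Cm n → Mx n} {z : Cm n}

theorem two_le : (2 : WithTop ℕ∞) ≤ ∞ := by norm_cast

/-- the holomorphic second derivative -/
def S2 (W : Cm n → Mx n) (z X Y : Cm n) : Mx n := ∑ k, ∑ l, (X k * Y l) • DM l (DM k W) z

theorem S2_comm (h : MS W z) (X Y : Cm n) : S2 W z X Y = S2 W z Y X := by
  rw [S2, S2, Finset.sum_comm]
  refine Finset.sum_congr rfl fun k _ => Finset.sum_congr rfl fun l _ => ?_
  rw [mul_comm]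
  congr 1
  ext i j
  exact P272.K.C2.dz_dz_comm _ _ ((h i j).of_le two_le)

/-- the derivative of the Christoffel symbols -/
theorem dGam (h : MS W z) (h0 : (W z).det ≠ 0) (X Y : Cm n) : dM (fun y => Gam W y X) z Y =
    S2 W z X Y * (W z)⁻¹ - Gam W z X * Gam W z Y - Rt W z X Y * (W z)⁻¹ := by
  have m : ∀ k, MS (DM k W) z := fun k => MC.DM (m := ∞) h (by simp)
  have e1 : dM (fun y => DX X W y) z Y =
      S2 W z X Y + ∑ l, ∑ k, (X k * conj (Y l)) • DM k (DMb l W) z := by
    rw [Finset.sum_comm, S2, ← Finset.sum_add_distrib]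
    refine (dM_sum _ (fun k _ => (MS.smul contDiffAt_const (m k)).md) Y).trans
      (Finset.sum_congr rfl fun k _ => ?_)
    rw [dM_smul (differentiableAt_const _) (m k).md, dM_eq]
    simp only [fderiv_fun_const, Pi.zero_apply, zero_apply, zero_smul, zero_add, DX, DXb, smul_add,
      Finset.smul_sum, smul_smul, P272.K.C2.DM_DMb_comm (MC.mono h two_le)]
  have e2 : Rt W z X Y = DX X W z * (W z)⁻¹ * DXb Y W z -
      ∑ l, ∑ k, (X k * conj (Y l)) • DM k (DMb l W) z := by
    simp only [Rt, RM, DX, DXb, Finset.sum_mul, Finset.mul_sum, Matrix.smul_mul, Matrix.mul_smul,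
      smul_smul, ← Finset.sum_sub_distrib, smul_sub, neg_add_eq_sub, mul_comm]
  refine (dM_mul (MS.DX (k := id) h contDiffAt_id contDiffAt_const).md (h.inv h0).md Y).trans ?_
  rw [dM_inv h h0, dM_eq W, e2, Gam, Gam]
  erw [e1]
  noncomm_ring

theorem rm_sym (h : MS W z)
    (cl : ∀ᶠ y in 𝓝 z, ∀ j k l, dz l (fun y => W y j k) y = dz j (fun y => W y l k) y)
    (k l j m : Fin n) : RM k l W z j m = RM j l W z k m := by
  have e : DMb l (DM k W) z j m = DMb l (DM j W) z k m :=
    P272.K.C2.dzb_congr l (cl.mono fun y hy => hy j m k)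
  simp only [RM, P272.K.C2.D2, P272.K.C2.DM_DMb_comm (MC.mono h two_le), Matrix.add_apply,
    Matrix.neg_apply, e, Matrix.mul_assoc]
  simp only [Matrix.mul_apply (M := DM _ W z), P272.K.C2.DM_apply, cl.self_of_nhds j _ k]

theorem line {E F : Type} [NormedAddCommGroup E] [NormedSpace ℝ E] [NormedAddCommGroup F]
    [NormedSpace ℝ F] {f : E → F} {p v : E} {A : F} (h : DifferentiableAt ℝ f p)
    (e : ∀ t : ℝ, f (p + t • v) = f p + t • A) : fderiv ℝ f p v = A := by
  refine HasDerivAt.unique (h.hasFDerivAt.hasLineDerivAt v) ?_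
  simpa [e] using ((hasDerivAt_id (0 : ℝ)).smul_const A).const_add (f p)

end Cu

open Cu in
theorem cur (n : ℕ) : CUR n := by
  intro U W h z hz
  have u := h.op.mem_nhds hz
  have m : MS W z := fun i j => (h.sm i j).contDiffAt u
  have ps : ∀ᶠ y in 𝓝 z, (W y).PosDef := mem_of_superset u h.pos
  have h0 : (W z).det ≠ 0 := (h.pos z hz).det_pos.ne'
  have sm : ∀ X V, ContDiffAt ℝ ∞ (fun q : Cm n × Cm n × Cm n => ga W q.1 q.2.1 q.2.2) (z, X, V) :=
    fun X V => (MS.Gam (k := Prod.fst) m h0 contDiffAt_fst (by fun_prop)).vecMul (by fun_prop)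
  have dg : ∀ X Y V, Dg W z Y X V = V ᵥ* dM (fun y => Gam W y X) z Y := fun X Y V =>
    (fd_vecMul (MS.Gam (k := id) m h0 contDiffAt_id contDiffAt_const).md
      (differentiableAt_const V) Y).trans (by simp)
  refine ⟨fun X V => Gam_symm (h.cl z hz) V X, fun X V V' => Matrix.add_vecMul _ _ _,
    fun c X V => Matrix.smul_vecMul _ _ _, sm, fun a b => MS.hf (m.comp (k := Prod.fst)
      contDiffAt_fst) (by fun_prop) (by fun_prop), fun X V Y X' V' => ?_, fun a b Y a' b' => ?_,
    fun X Y V => ?_, fun X Y a b => ?_, fun X Y a => ?_, fun X Y => ?_⟩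
  · have d := (sm X V).differentiableAt (by simp)
    rw [show (Y, X', V') = (Y, 0, 0) + (0, X', 0) + (0, 0, V') by simp, map_add, map_add,
      line (v := (0, X', 0)) (A := ga W z X' V) d fun t => ?_,
      line (v := (0, 0, V')) (A := ga W z X V') d fun t => ?_, Dg,
      fd_comp (k := fun y => (y, X, V)) d (by fun_prop), (hasFDerivAt_prodMk_left z _).fderiv]
    · rfl
    · simp [ga, Matrix.add_vecMul, Matrix.smul_vecMul]
    · simp only [Prod.smul_mk, Prod.mk_add_mk, smul_zero, add_zero]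
      change V ᵥ* Gam W z _ = V ᵥ* Gam W z _ + t • V ᵥ* Gam W z _
      rw [Gam_add, Gam_rsmul, Matrix.vecMul_add, Matrix.vecMul_smul]
  · have := fd_hf_cov (f := fun q : Cm n × Cm n × Cm n => W q.1) (a := fun q => q.2.1)
      (b := fun q => q.2.2) (q := (z, a, b)) (m.md.comp differentiableAt_fst) (by fun_prop)
      (by fun_prop) (v := (Y, a', b')) (G := Gam W z Y) (by
        rw [dM_comp m.md differentiableAt_fst, fderiv_fst]
        exact Gam_met m.md (ps.mono fun _ k => k.1) h0 Y)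
    rw [(hasFDerivAt_snd.fst).fderiv, (hasFDerivAt_snd.snd).fderiv] at this
    exact this
  · rw [dg, dg, dGam m h0, dGam m h0, S2_comm m X]
    change _ + V ᵥ* Gam W z X ᵥ* Gam W z Y - V ᵥ* Gam W z Y ᵥ* Gam W z X =
      V ᵥ* (Rt W z Y X * _) - V ᵥ* (Rt W z X Y * _)
    simp only [Matrix.vecMul_sub, Matrix.vecMul_vecMul]
    abel
  · refine (hf_mul_left _ _ _ _).symm.trans ?_
    rw [Matrix.nonsing_inv_mul_cancel_right _ _ h0.isUnit]
    rfl
  · rw [Kv, Kv, ← Matrix.vecMul_vecMul, ← Matrix.vecMul_vecMul]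
    congr 1
    ext j
    simp only [Matrix.vecMul, dotProduct, Kxy, Matrix.sum_apply, Matrix.smul_apply, smul_eq_mul,
      Finset.mul_sum]
    rw [Finset.sum_comm]
    conv_rhs => rw [Finset.sum_comm]
    refine Finset.sum_congr rfl fun l _ => ?_
    rw [Finset.sum_comm]
    refine Finset.sum_congr rfl fun k _ => Finset.sum_congr rfl fun i _ => ?_
    rw [rm_sym m (mem_of_superset u h.cl) k l i j]
    ring
  · simp only [Kxy, Matrix.conjTranspose_sum, Matrix.conjTranspose_smul,
      V.Lfc.rm_conj (MC.mono m two_le) ps, Complex.star_def, map_mul, Complex.conj_conj]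
    rw [Finset.sum_comm]
    simp only [mul_comm]

end Vale.Agent.P253W.Y.G
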