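import Vale.Agent.P253W.Y.G.Defs

/-!
# P253W, block Y: the `∂̄` derivative of the connection, the Levi form of the metric
-/

open scoped ContDiff ComplexConjugate ComplexOrder Matrix Topology
open Set Metric Filter
open Vale.Agent.P272.K (Cm)
open Vale.Agent.P253.R2.H451 (levi2)
open Complex (I)

noncomputable section

namespace Vale.Agent.P253W.Y.G

namespace Db

variable {n : ℕ} {W : Cm n → Mx n} {z : Cm n}

theorem ga_smul (c : ℂ) (X a : Cm n) : ga W z (c • X) a = c • ga W z X a := by
  have : DX (c • X) W z = c • DX X W z := by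
    simp only [DX, Finset.smul_sum, smul_smul, Pi.smul_apply, smul_eq_mul]
  rw [ga, ga, Gm, Gm, this, Matrix.smul_mul, Matrix.vecMul_smul]

theorem Kv_smul (c d : ℂ) (X Y a : Cm n) :
    Kv W z (c • X) (d • Y) a = (c * conj d) • Kv W z X Y a := by
  have : Kxy W z (c • X) (d • Y) = (c * conj d) • Kxy W z X Y := by
    simp only [Kxy, Finset.smul_sum, smul_smul, Pi.smul_apply, smul_eq_mul, map_mul]
    exact Finset.sum_congr rfl fun l _ => Finset.sum_congr rfl fun k _ => by congr 1; ring
  rw [Kv, Kv, this, Matrix.smul_mul, Matrix.vecMul_smul]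

variable (h : Cur W z)
include h

theorem ga_sm (X a : Cm n) : ContDiffAt ℝ ∞ (fun y => ga W y X a) z :=
  (h.sm X a).comp z (f := fun y => (y, X, a)) (contDiffAt_id.prodMk contDiffAt_const)

theorem Dg_smul (c : ℂ) (Y X a : Cm n) : Dg W z Y (c • X) a = c • Dg W z Y X a := by
  simp only [Dg, ga_smul]
  rw [fderiv_fun_const_smul ((ga_sm h X a).differentiableAt (by simp))]
  rfl

theorem one (X a : Cm n) :
    Dg W z X X a + I • Dg W z (I • X) X a = -((2 : ℂ) • Kv W z X X a) := by
  have h1 := h.cur X (I • X) a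
  have h2 := Kv_smul (W := W) (z := z) I 1 X X a
  have h3 := Kv_smul (W := W) (z := z) 1 I X X a
  rw [one_smul] at h2 h3
  rw [Dg_smul h, ga_smul, ga_smul, h.smul, h2, h3, add_sub_cancel_right, sub_eq_iff_eq_add] at h1
  rw [h1]
  ext i
  simp only [Pi.add_apply, Pi.smul_apply, Pi.sub_apply, Pi.neg_apply, smul_eq_mul, map_one,
    Complex.conj_I]
  linear_combination (2 * Kv W z X X a i + Dg W z X X a i) * Complex.I_mul_I

theorem fd {V : Cm n → Cm n} (hV : DifferentiableAt ℝ V z) (a : Cm n) :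
    DifferentiableAt ℝ (fun y => (hf (W y) (V y) a).re) z ∧ ∀ Y,
      fderiv ℝ (fun y => (hf (W y) (V y) a).re) z Y =
        (hf (W z) (fderiv ℝ V z Y + ga W z Y (V z)) a + hf (W z) (V z) (ga W z Y a)).re := by
  have h1 := Complex.reCLM.hasFDerivAt.comp z
    (((h.hsm (V z) a).differentiableAt (by simp)).hasFDerivAt.comp z (f := fun y => (y, V y, a))
      ((hasFDerivAt_id z).prodMk (hV.hasFDerivAt.prodMk (hasFDerivAt_const a z))))
  refine ⟨h1.differentiableAt, fun Y => ?_⟩
  have h2 := congrArg Complex.re (h.cpt (V z) a Y (fderiv ℝ V z Y) 0)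
  rw [zero_add] at h2
  rw [← h2]
  exact DFunLike.congr_fun h1.fderiv Y

end Db

open Db in
/-- **DB** -/
theorem db (n : ℕ) (h : CUR n) : DB n := by
  intro U W hK z hz X a
  have c := h U W hK z hz
  refine ⟨one c X a, ?_⟩
  have sm : ContDiffAt ℝ ∞ (fun y => qf (W y) a) z := Complex.reCLM.contDiff.contDiffAt.comp z
    ((c.hsm a a).comp z (f := fun y => (y, a, a)) (contDiffAt_id.prodMk contDiffAt_const))
  have d2 : DifferentiableAt ℝ (fderiv ℝ fun y => qf (W y) a) z :=
    (sm.fderiv_right (m := 1) (WithTop.coe_le_coe.2 (le_top : (2 : ℕ∞) ≤ ⊤))).differentiableAt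
      (by simp)
  have key : ∀ Y, fderiv ℝ (fderiv ℝ fun y => qf (W y) a) z Y Y =
      2 * (hf (W z) (Dg W z Y Y a + ga W z Y (ga W z Y a)) a +
        hf (W z) (ga W z Y a) (ga W z Y a)).re := fun Y => by
    have e : (fun y => fderiv ℝ (fun y => qf (W y) a) y Y) =ᶠ[𝓝 z]
        fun y => 2 * (hf (W y) (ga W y Y a) a).re := by
      filter_upwards [hK.op.mem_nhds hz] with y hy
      refine ((fd (h U W hK y hy) (differentiableAt_const a) a).2 Y).trans ?_
      rw [← hf_conj (hK.pos y hy).1 (ga W y Y a) a, Complex.add_re, Complex.conj_re, two_mul]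
      simp
    have d := fd c ((ga_sm c Y a).differentiableAt (by simp)) a
    have e2 := DFunLike.congr_fun (fderiv_clm_apply d2 (differentiableAt_const Y)) Y
    rw [e.fderiv_eq, fderiv_const_mul d.1, _root_.smul_apply, d.2] at e2
    simpa [Dg] using e2.symm
  have e := congrArg (fun v => hf (W z) v a) (one c X a)
  simp only [← neg_smul, hf_add, hf_smul, c.kv] at e
  rw [levi2, key, key, Dg_smul c, ga_smul, ga_smul, c.smul]
  simp only [hf_add, hf_smul, hf_smul', ← mul_add, ← Complex.add_re, Complex.conj_I]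
  have e3 : (4 : ℝ) * (qf (W z) (ga W z X a) - bk W z X a) =
      2 * (2 * hf (W z) (ga W z X a) (ga W z X a) + -2 * hf (Kxy W z X X) a a).re := by
    rw [show qf (W z) (ga W z X a) = (hf (W z) (ga W z X a) (ga W z X a)).re from rfl,
      show bk W z X a = (hf (Kxy W z X X) a a).re from rfl]
    simp
    ring
  rw [e3, ← e]
  congr 2
  linear_combination (hf (W z) (ga W z X (ga W z X a)) a -
    hf (W z) (ga W z X a) (ga W z X a)) * Complex.I_mul_I

end Vale.Agent.P253W.Y.G
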