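import Vale.Agent.P253W.Y.G.Defs

/-!
# P253W, block Y: the geodesic flow.
-/

open scoped ContDiff ENNReal Topology ComplexConjugate ComplexOrder Matrix
open MeasureTheory Set Metric Filter Vale.Agent.P253Z
open Vale.Agent.P272.K (Cm dz)

noncomputable section

namespace Vale.Agent.P253W.Y.G

variable {n : ℕ}

theorem Fl.exp_half : Real.exp (1 / 2) ≤ 2 := by
  have h := Real.exp_one_lt_d9
  have h2 : Real.exp (1 / 2) * Real.exp (1 / 2) = Real.exp 1 := by rw [← Real.exp_add]; norm_num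
  nlinarith [Real.exp_pos (1 / 2)]

/-- the flow of a field `(v, a)` cut off by a factor of modulus at most one -/
theorem Fl.gron {c T c' T' : ℝ → Cm n} (hc : ∀ t, HasDerivAt c (c' t) t)
    (hT : ∀ t, HasDerivAt T (T' t) t) (h1 : ∀ t, ‖c' t‖ ≤ ‖T t‖)
    (h2 : ∀ t, ‖T' t‖ ≤ 1 / 2 * ‖T t‖) {t : ℝ} (ht : t ∈ Icc (0 : ℝ) 1) :
    ‖c t - c 0‖ ≤ 2 * ‖T 0‖ ∧ ‖T t‖ ≤ 2 * ‖T 0‖ := by
  have hb : ∀ s ∈ Icc (0 : ℝ) 1, ‖T s‖ ≤ 2 * ‖T 0‖ := by
    intro s hs
    have h := norm_le_gronwallBound_of_norm_deriv_right_le (f := T) (f' := T') (δ := ‖T 0‖)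
      (K := 1 / 2) (ε := 0) (a := 0) (b := 1)
      (fun x _ => (hT x).continuousAt.continuousWithinAt)
      (fun x _ => (hT x).hasDerivWithinAt) le_rfl (fun x _ => by rw [add_zero]; exact h2 x) s hs
    rw [gronwallBound_ε0] at h
    have h3 : Real.exp (1 / 2 * (s - 0)) ≤ 2 :=
      (Real.exp_le_exp.2 (by linarith [hs.2])).trans Fl.exp_half
    nlinarith [norm_nonneg (T 0)]
  refine ⟨?_, hb t ht⟩
  have h := norm_image_sub_le_of_norm_deriv_le_segment' (f := c) (f' := c') (a := 0) (b := 1)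
    (C := 2 * ‖T 0‖) (fun x _ => (hc x).hasDerivWithinAt)
    (fun x hx => (h1 x).trans (hb x (Ico_subset_Icc_self hx))) t ht
  nlinarith [norm_nonneg (T 0), ht.2]

theorem fl (n : ℕ) (h : CUR n) (h1 : GF) : FL n := by
  intro G r W hK hG hb hr hGr
  have hr1 : 64 * r ≤ 1 := by nlinarith
  let χ : ContDiffBump (0 : Cm n × Cm n) := ⟨17 * r, 18 * r, by linarith, by linarith⟩
  let g : Cm n × Cm n → Cm n × Cm n := fun q => (q.2, -ga W q.1 q.2 q.2)
  let f : Cm n × Cm n → Cm n × Cm n := fun q => χ q • g q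
  have hfs : ContDiff ℝ ∞ f := by
    refine contDiff_iff_contDiffAt.2 fun q => ?_
    by_cases hq : q ∈ tsupport χ
    · rw [χ.tsupport_eq, mem_closedBall_zero_iff] at hq
      have hq1 : q.1 ∈ ball (0 : Cm n) 1 := by
        rw [mem_ball_zero_iff]
        have : ‖q‖ ≤ 18 * r := hq
        linarith [norm_fst_le q]
      refine χ.contDiff.contDiffAt.smul (contDiffAt_snd.prodMk ?_)
      exact (((h _ W hK q.1 hq1).sm q.2 q.2).comp q
        (contDiffAt_fst.prodMk (contDiffAt_snd.prodMk contDiffAt_snd))).neg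
    · refine (contDiffAt_const (c := 0)).congr_of_eventuallyEq ?_
      filter_upwards [notMem_tsupport_iff_eventuallyEq.1 hq] with y hy
      simp only [f, hy, Pi.zero_apply, zero_smul]
  have hfc : HasCompactSupport f := χ.hasCompactSupport.smul_right
  obtain ⟨K, hL⟩ := hfs.lipschitzWith_of_hasCompactSupport hfc (by simp)
  obtain ⟨Φ, hΦ, h0, hd⟩ := h1 _ f hfs hfc
  have hdc : ∀ w t, HasDerivAt (fun s => (Φ (s, w)).1) (f (Φ (t, w))).1 t := fun w t =>
    (ContinuousLinearMap.fst ℝ (Cm n) (Cm n)).hasFDerivAt.comp_hasDerivAt t (hd t w)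
  have hdT : ∀ w t, HasDerivAt (fun s => (Φ (s, w)).2) (f (Φ (t, w))).2 t := fun w t =>
    (ContinuousLinearMap.snd ℝ (Cm n) (Cm n)).hasFDerivAt.comp_hasDerivAt t (hd t w)
  have hχ : ∀ q, ‖χ q‖ ≤ 1 := fun q => by
    rw [Real.norm_of_nonneg χ.nonneg]; exact χ.le_one
  have hb1 : ∀ q, ‖(f q).1‖ ≤ ‖q.2‖ := fun q => by
    show ‖χ q • q.2‖ ≤ _
    rw [norm_smul]
    nlinarith [hχ q, norm_nonneg q.2]
  have hb2 : ∀ q, ‖(f q).2‖ ≤ 1 / 2 * ‖q.2‖ := fun q => by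
    show ‖χ q • -ga W q.1 q.2 q.2‖ ≤ _
    by_cases hq : q ∈ Function.support χ
    · rw [χ.support_eq, mem_ball_zero_iff] at hq
      have hq' : ‖q‖ < 18 * r := hq
      have h2 := hb q.1 (by rw [mem_ball_zero_iff]; linarith [norm_fst_le q]) q.2 q.2
      have h3 : G * ‖q.2‖ ≤ 1 / 2 := by nlinarith [norm_snd_le q]
      rw [norm_smul, norm_neg]
      nlinarith [hχ q, norm_nonneg q.2, norm_nonneg (ga W q.1 q.2 q.2)]
    · rw [Function.notMem_support.1 hq, zero_smul, norm_zero]; positivity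
  have hbd : ∀ w : Cm n × Cm n, ∀ t ∈ Icc (0 : ℝ) 1,
      ‖(Φ (t, w)).1 - w.1‖ ≤ 2 * ‖w.2‖ ∧ ‖(Φ (t, w)).2‖ ≤ 2 * ‖w.2‖ := fun w t ht => by
    have := Fl.gron (hdc w) (hdT w) (fun t => hb1 _) (fun t => hb2 _) ht
    simpa only [h0] using this
  have hone : ∀ w ∈ Om n r, ∀ t ∈ Icc (0 : ℝ) 1, ∀ v, ‖v‖ ≤ ‖(Φ (t, w)).2‖ →
      f ((Φ (t, w)).1, v) = g ((Φ (t, w)).1, v) := fun w hw t ht v hv => by
    have h2 := mem_ball_zero_iff.1 hw.1
    have h3 := mem_ball_zero_iff.1 hw.2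
    have h4 := norm_sub_norm_le (Φ (t, w)).1 w.1
    obtain ⟨h5, h6⟩ := hbd w t ht
    have : χ ((Φ (t, w)).1, v) = 1 := χ.one_of_mem_closedBall (by
      rw [mem_closedBall_zero_iff, Prod.norm_def]
      exact max_le (show _ ≤ 17 * r by linarith) (show _ ≤ 17 * r by linarith))
    simp only [f, this, one_smul]
  have huq : ∀ (w : Cm n × Cm n) (y : ℝ → Cm n × Cm n), y 0 = w →
      (∀ s ∈ Icc (0 : ℝ) 1, HasDerivAt y (f (y s)) s) → Φ (1, w) = y 1 := fun w y hy0 hy =>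
    ODE_solution_unique (v := fun _ => f) (fun _ => hL) (a := 0) (b := 1)
      (fun s _ => (hd s w).continuousAt.continuousWithinAt)
      (fun s _ => (hd s w).hasDerivWithinAt)
      (fun s hs => (hy s hs).continuousAt.continuousWithinAt)
      (fun s hs => (hy s (Ico_subset_Icc_self hs)).hasDerivWithinAt) (by rw [h0, hy0])
      (right_mem_Icc.2 zero_le_one)
  have hode : ∀ w ∈ Om n r, ∀ t ∈ Icc (0 : ℝ) 1,
      HasDerivAt (fun s => (Φ (s, w)).1) (Φ (t, w)).2 t ∧ HasDerivAt (fun s => (Φ (s, w)).2)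
        (-ga W (Φ (t, w)).1 (Φ (t, w)).2 (Φ (t, w)).2) t := fun w hw t ht => by
    have h2 : f (Φ (t, w)) = g (Φ (t, w)) := hone w hw t ht _ le_rfl
    have h3 := hdc w t
    have h4 := hdT w t
    rw [h2] at h3 h4
    exact ⟨h3, h4⟩
  refine ⟨fun x => (Φ x).1, fun x => (Φ x).2, ⟨hr, by linarith⟩, hΦ.fst, hΦ.snd,
    fun w => by rw [h0], fun w => by rw [h0], fun p => ?_, fun w _ => hbd w, hode,
    fun w hw t ht => ?_⟩
  · rw [huq (p, 0) (fun _ => (p, 0)) rfl fun s _ => ?_]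
    have : f (p, 0) = 0 := by simp [f, g, ga]
    rw [this]
    exact hasDerivAt_const s _
  · rw [huq (w.1, (t : ℂ) • w.2)
      (fun s => ((Φ (t * s, w)).1, (t : ℂ) • (Φ (t * s, w)).2)) (by simp [h0]) fun s hs => ?_]
    · simp
    have hts : t * s ∈ Icc (0 : ℝ) 1 :=
      ⟨mul_nonneg ht.1 hs.1, mul_le_one₀ ht.2 hs.1 hs.2⟩
    obtain ⟨h2, h3⟩ := hode w hw _ hts
    have hm : (Φ (t * s, w)).1 ∈ ball (0 : Cm n) 1 := by
      have h4 := norm_sub_norm_le (Φ (t * s, w)).1 w.1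
      have h5 := mem_ball_zero_iff.1 hw.1
      have h6 := mem_ball_zero_iff.1 hw.2
      rw [mem_ball_zero_iff]
      linarith [(hbd w _ hts).1]
    have hC := h _ W hK _ hm
    rw [hone w hw _ hts _ (by
      rw [norm_smul, Complex.norm_real, Real.norm_of_nonneg ht.1]
      nlinarith [norm_nonneg (Φ (t * s, w)).2, ht.2])]
    have hl : HasDerivAt (fun s : ℝ => t * s) t s := by simpa using (hasDerivAt_id s).const_mul t
    have h4 := (h2.scomp s hl).prodMk ((h3.scomp s hl).const_smul (t : ℂ))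
    refine h4.congr_deriv ?_
    simp only [g]
    rw [hC.smul, hC.sym (_ • _), hC.smul]
    simp only [Complex.coe_smul, smul_neg]

end Vale.Agent.P253W.Y.G
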