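import Vale.Agent.P253W.Y.G.Defs
import Vale.Agent.P253W.X.Lv
import Vale.Agent.P253W.T.Pot1

/-!
# P253W, block Y, row GAM: a bound for the connection
-/

open scoped ContDiff Topology
open MeasureTheory Set Metric Filter
open Vale.Agent.P272.K (Cm)
open Vale.Agent.P272.GJ (ddb ddb_eq)
open Vale.Agent.P253W.X (lv2)
open Complex (I)

noncomputable section

namespace Vale.Agent.P253W.Y.G

variable {n : ℕ}

namespace Gam

theorem unit (h : CUR n) (h1 : DB n) (h2 : CB n) (h3 : CP) {C s : ℝ} {W : Cm n → Mx n} (hC : 1 ≤ C)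
    (K : SK C s W) {z X a : Cm n} (hz : z ∈ ball (0 : Cm n) (1 / 2)) (hX : ‖X‖ ≤ 1) (ha : ‖a‖ ≤ 1)
    (i : Fin n) : ‖ga W z X a i‖ ≤
      (Real.pi * (1 / 8) ^ 2)⁻¹ * (12 * C ^ 3) + 2 * C ^ 2 * (1 / 8) := by
  have s0 := pow_pos K.s_pos 2
  let L : ℂ → Cm n := fun t => z + t • X
  have m : ∀ t ∈ closedBall (0 : ℂ) (2 * (1 / 8)), L t ∈ ball (0 : Cm n) 1 := fun t ht => by
    rw [mem_ball_zero_iff] at hz ⊢
    refine (norm_add_le _ _).trans_lt ?_
    rw [norm_smul]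
    nlinarith [mem_closedBall_zero_iff.1 ht, norm_nonneg t]
  have dL : ∀ t, HasFDerivAt L ((ContinuousLinearMap.id ℝ ℂ).smulRight X) t := fun t =>
    ((hasFDerivAt_id t).smul_const X).const_add z
  have sub : closedBall (0 : ℂ) (1 / 8) ⊆ closedBall 0 (2 * (1 / 8)) :=
    closedBall_subset_closedBall (by norm_num)
  have x2 : ‖X‖ ^ 2 ≤ 1 := pow_le_one₀ (norm_nonneg _) hX
  have a2 : ‖a‖ ^ 2 ≤ 1 := pow_le_one₀ (norm_nonneg _) ha
  let v : ℂ → ℝ := fun t => qf (W (L t)) a + (C ^ 2 + 1) * s ^ 2 * ‖t‖ ^ 2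
  have hv : ∀ t ∈ closedBall (0 : ℂ) (2 * (1 / 8)), ContDiffAt ℝ 2 v t ∧
      ‖ga W (L t) X a i‖ ≤ C / s ^ 2 * ddb v t ∧ v t ≤ 3 * C ^ 2 * s ^ 2 := fun t ht => by
    have q : ContDiffAt ℝ 2 (fun y => qf (W y) a) (L t) :=
      Complex.reCLM.contDiff.contDiffAt.comp _ ((((h _ W K.toKa _ (m t ht)).hsm a a).comp (L t)
        (f := fun y => (y, a, a)) (by fun_prop)).of_le (WithTop.coe_le_coe.2 le_top))
    have q1 : ContDiffAt ℝ 2 (fun t => qf (W (L t)) a) t := q.comp t (by fun_prop)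
    have q2 : ContDiffAt ℝ 2 (fun t : ℂ => ‖t‖ ^ 2) t := (contDiff_norm_sq ℝ).contDiffAt
    have q3 : ContDiffAt ℝ 2 v t := q1.add (contDiffAt_const.mul q2)
    have e : ddb v t = lv2 v t 1 / 4 := by rw [ddb_eq q3, lv2, smul_eq_mul, mul_one]
    rw [P253W.X.Lv.add q1 (contDiffAt_const.mul q2), P253W.X.Lv.smul q2, P253W.X.Lv.nsq₀,
      P253W.X.Lv.pull (T := L) (by fun_prop) q, (dL t).fderiv] at e
    have d : lv2 _ _ _ = _ := (h1 _ W K.toKa _ (m t ht) X a).2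
    simp only [ContinuousLinearMap.smulRight_apply, ContinuousLinearMap.id_apply, one_smul, d,
      norm_one] at e
    have b := ((h2 C s W hC K _ (m t ht) X).2.2.2.2 a).2
    have lo := K.lo _ (m t ht) (ga W (L t) X a)
    have up := K.up _ (m t ht) a
    have t2 : ‖t‖ ^ 2 ≤ 1 := pow_le_one₀ (norm_nonneg _)
      ((mem_closedBall_zero_iff.1 ht).trans (by norm_num))
    have c2 : C ^ 2 * s ^ 2 * ‖X‖ ^ 2 * ‖a‖ ^ 2 ≤ C ^ 2 * s ^ 2 := by
      rw [mul_assoc]
      exact mul_le_of_le_one_right (by positivity) (mul_le_one₀ x2 (by positivity) a2)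
    refine ⟨q3, (norm_le_pi_norm _ i).trans ?_, ?_⟩
    · rw [div_mul_eq_mul_div, le_div_iff₀ s0, e]
      nlinarith [mul_nonneg s0.le (sq_nonneg (‖ga W (L t) X a‖ - 1)),
        mul_nonneg s0.le (norm_nonneg (ga W (L t) X a)), mul_nonneg s0.le (sub_nonneg.2 hC)]
    · have : C ≤ C ^ 2 := by nlinarith
      have : (C ^ 2 + 1) * s ^ 2 * ‖t‖ ^ 2 ≤ (C ^ 2 + 1) * s ^ 2 :=
        mul_le_of_le_one_right (by positivity) t2
      have : C * (s ^ 2 * ‖a‖ ^ 2) ≤ C * s ^ 2 := by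
        gcongr
        exact mul_le_of_le_one_right s0.le a2
      simp only [v]
      nlinarith
  have c0 : 0 < C / s ^ 2 := by positivity
  have ms := T.Pot1.mass0 (by norm_num) fun t ht => ⟨(hv t ht).1,
    nonneg_of_mul_nonneg_right ((norm_nonneg _).trans (hv t ht).2.1) c0, (hv t ht).2.2⟩
  have v0 : 0 ≤ v 0 := by
    have := K.lo _ (m 0 (by simp)) a
    simp only [v, norm_zero]
    nlinarith [mul_nonneg s0.le (sq_nonneg ‖a‖)]
  have k := h3 (fun t => ga W (L t) X a i) (1 / 8) (2 * C ^ 2) (by norm_num) fun t ht => by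
    have q : ContDiffAt ℝ 1 (fun y => ga W y X a) (L t) :=
      (((h _ W K.toKa _ (m t (sub ht))).sm X a).comp (L t) (f := fun y => (y, X, a))
        (by fun_prop)).of_le (by simp)
    have d := hasFDerivAt_pi'.1 ((q.differentiableAt one_ne_zero).hasFDerivAt.comp t (dL t)) i
    refine ⟨contDiffAt_pi.1 (q.comp t (by fun_prop)) i, ?_⟩
    have e := congrFun (h1 _ W K.toKa _ (m t (sub ht)) X a).1 i
    have b := ((h2 C s W hC K _ (m t (sub ht)) X).2.2.2.2 a).1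
    rw [show fderiv ℝ (fun t => ga W (L t) X a i) t = _ from d.fderiv]
    refine (congrArg norm (Eq.trans ?_ e)).trans_le ((norm_le_pi_norm _ i).trans ?_)
    · simp [Dg]
    · rw [norm_neg, norm_smul, Complex.norm_two]
      have := mul_le_one₀ x2 (norm_nonneg _) ha
      nlinarith [sq_nonneg C]
  have k2 : ∫ t in ball (0 : ℂ) (1 / 8), ‖ga W (L t) X a i‖ ≤
      ∫ t in ball (0 : ℂ) (1 / 8), C / s ^ 2 * ddb v t :=
    integral_mono_of_nonneg (Eventually.of_forall fun _ => norm_nonneg _)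
      ((((T.Pot1.cont_ddb fun t ht => (hv t ht).1).integrableOn_compact
        (isCompact_closedBall _ _)).mono_set (ball_subset_closedBall.trans sub)).const_mul _)
      (ae_restrict_of_forall_mem measurableSet_ball fun t ht =>
        (hv t (sub (ball_subset_closedBall ht))).2.1)
  rw [integral_const_mul] at k2
  have k3 := k2.trans (mul_le_mul_of_nonneg_left (ms.trans
    (show _ ≤ 12 * C ^ 2 * s ^ 2 by linarith)) c0.le)
  rw [show C / s ^ 2 * (12 * C ^ 2 * s ^ 2) = 12 * C ^ 3 by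
    have := K.s_pos.ne'
    field_simp] at k3
  simp only [L, zero_smul, add_zero] at k k3
  refine k.trans ?_
  gcongr

end Gam

/-- **GAM** -/
theorem gam (n : ℕ) (h : CUR n) (h1 : DB n) (h2 : CB n) (h3 : CP) : GAM n := fun C hC => by
  refine ⟨max 1 ((Real.pi * (1 / 8) ^ 2)⁻¹ * (12 * C ^ 3) + 2 * C ^ 2 * (1 / 8)),
    le_max_left _ _, fun s W K z hz X a => ?_⟩
  have c := h _ W K.toKa z (ball_subset_ball (by norm_num) hz)
  have e : ∀ v : Cm n, ∃ u : Cm n, ‖u‖ ≤ 1 ∧ v = (‖v‖ : ℂ) • u := fun v => by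
    rcases eq_or_ne v 0 with rfl | e
    · exact ⟨0, by simp, by simp⟩
    · have := norm_ne_zero_iff.2 e
      exact ⟨(‖v‖ : ℂ)⁻¹ • v, by simp [norm_smul, this], by simp [this]⟩
  obtain ⟨X', x1, x2⟩ := e X
  obtain ⟨a', a1, a2⟩ := e a
  have := (pi_norm_le_iff_of_nonneg (zero_le_one.trans (le_max_left _ _))).2 fun i =>
    le_max_of_le_right (Gam.unit h h1 h2 h3 hC K hz x1 a1 i)
  conv_lhs => rw [x2, a2, c.smul, c.sym, c.smul, c.sym]
  simp only [norm_smul, Complex.norm_real, norm_norm]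
  exact (mul_le_mul_of_nonneg_left (mul_le_mul_of_nonneg_left this (norm_nonneg X))
    (norm_nonneg a)).trans_eq (by ring)

end Vale.Agent.P253W.Y.G
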