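import Vale.Agent.P253W.Y.G.Defs
import Vale.Agent.P265.H185.Flow

/-!
# P253W, block Y: the flow of a vector field with compact support
-/

namespace Vale.Agent.P253W.Y.G

open P265.H185

/-- **GF** -/
theorem gf : GF := fun _ _ _ _ _ h c =>
  let ⟨_, b⟩ := h.continuous.bounded_above_of_compact_support c
  fg_global_flow h (exists_curve_of_bounded (h.of_le (by simp)) b)

end Vale.Agent.P253W.Y.G
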