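import Vale.Agent.P253W.Y.G.Defs

/-!
# P253W, block Y, row HES: the derivatives of the square of the distance
-/

open scoped ContDiff Topology
open Set Metric Filter Vale.Agent.P253Z
open Vale.Agent.P272.K (Cm)
open Vale.Agent.P253.R2.H451 (levi2)
open Complex (I)

noncomputable section

namespace Vale.Agent.P253W.Y.G

variable {n : ℕ} {W : Cm n → Mx n}

/-- the derivative of the inner product of two vector fields along a map -/
theorem Cur.d_gr {E : Type} [NormedAddCommGroup E] [NormedSpace ℝ E] {x a b : E → Cm n} {p : E}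
    {x' a' b' : E →L[ℝ] Cm n} (h : Cur W (x p)) (hx : HasFDerivAt x x' p) (ha : HasFDerivAt a a' p)
    (hb : HasFDerivAt b b' p) :
    ∃ L : E →L[ℝ] ℝ, HasFDerivAt (fun y => gr (W (x y)) (a y) (b y)) L p ∧ ∀ v,
      L v = gr (W (x p)) (a' v + ga W (x p) (x' v) (a p)) (b p) +
        gr (W (x p)) (a p) (b' v + ga W (x p) (x' v) (b p)) :=
  ⟨_, Complex.reCLM.hasFDerivAt.comp p (HasFDerivAt.comp (f := fun y => (x y, a y, b y)) p
    ((h.hsm _ _).differentiableAt (by simp)).hasFDerivAt (hx.prodMk (ha.prodMk hb))),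
    fun _ => congrArg Complex.re (h.cpt _ _ _ _ _)⟩

theorem Cur.ga_I {z : Cm n} (h : Cur W z) (X : Cm n) : ga W z (I • X) (I • X) = -ga W z X X := by
  rw [h.smul, h.sym, h.smul, smul_smul, Complex.I_mul_I, neg_one_smul]

/-- **the row HES** -/
theorem hes (n : ℕ) (h : CUR n) : HES n := fun r W c T lg k fl l => by
  have sub : ball (0 : Cm n) r ⊆ ball 0 1 := ball_subset_ball (by linarith [fl.small.1, fl.small.2])
  have cu : ∀ z ∈ ball (0 : Cm n) r, Cur W z := fun z hz => h _ W k z (sub hz)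
  have nb : ∀ z ∈ ball (0 : Cm n) r ×ˢ ball (0 : Cm n) r, _ ∈ 𝓝 z :=
    fun z hz => (isOpen_ball.prod isOpen_ball).mem_nhds hz
  have sl := fun z hz => l.sm.contDiffAt (nb z hz)
  have dl := fun z hz => ((sl z hz).differentiableAt (by simp)).hasFDerivAt
  have dΦ : ∀ {c : ℝ × Cm n × Cm n → Cm n}, ContDiff ℝ ∞ c →
      ∀ z ∈ ball (0 : Cm n) r ×ˢ ball (0 : Cm n) r, ∃ L : Cm n × Cm n →L[ℝ] Cm n,
        HasFDerivAt (fun y => c (1, y.1, lg y)) L z ∧ ∀ ζ,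
        L ζ = Jf c (z.1, lg z) (ζ.1, fderiv ℝ lg z ζ) 1 := fun hc z hz =>
    ⟨_, HasFDerivAt.comp (f := fun y : Cm n × Cm n => ((1 : ℝ), y.1, lg y)) z
      (hc.differentiable (by simp) _).hasFDerivAt
      ((hasFDerivAt_const _ _).prodMk (hasFDerivAt_fst.prodMk (dl z hz))), fun _ => rfl⟩
  have ex : ∀ z ∈ ball (0 : Cm n) r ×ˢ ball (0 : Cm n) r, c (1, z.1, lg z) = z.2 :=
    fun z hz => (l.ex_lg _ hz.1 _ hz.2).1
  have a : ∀ z ∈ ball (0 : Cm n) r ×ˢ ball (0 : Cm n) r, ∀ ζ : Cm n × Cm n,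
      Jf c (z.1, lg z) (ζ.1, fderiv ℝ lg z ζ) 1 = ζ.2 := fun z hz ζ => by
    obtain ⟨L, d, e⟩ := dΦ fl.c_sm z hz
    rw [← e, d.unique (hasFDerivAt_snd.congr_of_eventuallyEq (mem_of_superset (nb z hz) ex))]
    rfl
  refine ⟨fun z hz ζ => ⟨a z hz ζ, ?_⟩, fun g z hz ζ => ?_⟩
  · obtain ⟨L, d, e⟩ := (cu _ hz.1).d_gr hasFDerivAt_fst (dl z hz) (dl z hz)
    rw [show fderiv ℝ (dq W lg) z = L from d.fderiv, e,
      gr_comm (k.pos _ (sub hz.1)).1 (lg z), (cu _ hz.1).sym (lg z), two_mul]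
    rfl
  have s : ContDiffAt ℝ ∞ (dq W lg) z := Complex.reCLM.contDiff.contDiffAt.comp z
    (ContDiffAt.comp (f := fun y => (y.1, lg y, lg y)) z ((cu _ hz.1).hsm _ _)
      (contDiffAt_fst.prodMk ((sl z hz).prodMk (sl z hz))))
  obtain ⟨L, dT, eT⟩ := dΦ fl.T_sm z hz
  have key : ∀ ζ : Cm n × Cm n, fderiv ℝ (fderiv ℝ (dq W lg)) z ζ ζ = 2 * (Hs W c T lg z ζ +
      gr (W z.2) (ga W z.2 ζ.2 ζ.2) (T (1, z.1, lg z)) - gr (W z.1) (ga W z.1 ζ.1 ζ.1) (lg z)) := by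
    intro ζ
    obtain ⟨L₂, d₂, e₂⟩ := (cu _ hz.2).d_gr hasFDerivAt_snd (hasFDerivAt_const ζ.2 z) dT
    obtain ⟨L₁, d₁, e₁⟩ := (cu _ hz.1).d_gr hasFDerivAt_fst (hasFDerivAt_const ζ.1 z) (dl z hz)
    have d := ((s.fderiv_right (m := 1) (by norm_cast)).differentiableAt one_ne_zero
      ).hasFDerivAt.clm_apply (hasFDerivAt_const ζ z)
    have := congr($(d.unique (((d₂.fun_sub d₁).const_mul 2).congr_of_eventuallyEq
      (mem_of_superset (nb z hz) fun y hy => g y hy ζ))) ζ)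
    simp only [ContinuousLinearMap.comp_zero, zero_add, ContinuousLinearMap.flip_apply, smul_apply,
      sub_apply, e₂, e₁, eT, smul_eq_mul, zero_apply, ContinuousLinearMap.coe_fst',
      ContinuousLinearMap.coe_snd'] at this
    rw [this, Hs, Df, a z hz, ex z hz, (cu _ hz.1).sym (lg z), (cu _ hz.2).sym (T _)]
    ring
  refine (congrArg₂ (· + ·) (key ζ) (key (I • ζ))).trans ?_
  simp only [Prod.smul_fst, Prod.smul_snd, (cu _ hz.1).ga_I, (cu _ hz.2).ga_I, map_neg, neg_apply]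
  ring

end Vale.Agent.P253W.Y.G
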