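import Vale.Agent.P253W.Y.G.Defs

/-!
# P253W, block Y, row JAB: estimates for the solutions of the Jacobi equation
-/

open Set

noncomputable section

namespace Vale.Agent.P253W.Y.G

namespace JabA

variable {E : Type} [NormedAddCommGroup E] [NormedSpace ℝ E] {g : E →L[ℝ] E →L[ℝ] ℝ}
  (hs : ∀ a b, g a b = g b a) (hp : ∀ a, 0 ≤ g a a)
include hs hp

theorem cs (a b : E) : |g a b| ≤ √(g a a) * √(g b b) := by
  have h := discrim_le_zero (a := g b b) (b := 2 * g a b) (c := g a a) fun t => by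
    have := hp (a + t • b)
    simp only [map_add, map_smul, add_apply, smul_apply, smul_eq_mul, hs b a] at this
    linarith
  rw [← Real.sqrt_mul (hp a)]
  exact Real.abs_le_sqrt (by rw [discrim] at h; linarith)

theorem tri (a b : E) : √(g (a + b) (a + b)) ≤ √(g a a) + √(g b b) := by
  refine Real.sqrt_le_iff.2 ⟨by positivity, ?_⟩
  simp only [map_add, add_apply, hs b a, add_sq, Real.sq_sqrt (hp _)]
  linarith [le_abs_self (g a b), cs hs hp a b]

omit hs in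
/-- the mean value inequality for the seminorm -/
theorem mv {f f' : ℝ → E} {m : ℝ} (hm : 0 ≤ m)
    (hf : ∀ t ∈ Icc (0 : ℝ) 1, HasDerivWithinAt f (f' t) (Icc 0 1) t)
    (hb : ∀ t ∈ Icc (0 : ℝ) 1, ∀ b, |g (f' t) b| ≤ m * √(g b b)) :
    ∀ t ∈ Icc (0 : ℝ) 1, √(g (f t - f 0) (f t - f 0)) ≤ m := fun t ht => by
  have h := norm_image_sub_le_of_norm_deriv_le_segment' (f := fun s => g (f s) (f t - f 0))
    (fun s hs => (g.flip (f t - f 0)).hasFDerivAt.comp_hasDerivWithinAt s (hf s hs))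
    (fun s hs => hb s (Ico_subset_Icc_self hs) _) t ht
  rw [← sub_apply, ← map_sub, sub_zero, Real.norm_of_nonneg (hp _)] at h
  have h2 := Real.sq_sqrt (hp (f t - f 0))
  have h3 := Real.sqrt_nonneg (g (f t - f 0) (f t - f 0))
  have h4 := mul_le_of_le_one_right (mul_nonneg hm h3) ht.2
  nlinarith

variable {L : ℝ → E → E} {κ μ : ℝ} {j k : ℝ → E} (κ0 : 0 ≤ κ) (κ1 : κ ≤ 1 / 4) (μ0 : 0 ≤ μ)
  (sym : ∀ t ∈ Icc (0 : ℝ) 1, ∀ a b, g (L t a) b = g a (L t b))
  (bd : ∀ t ∈ Icc (0 : ℝ) 1, ∀ a b, |g (L t a) b| ≤ κ * √(g a a) * √(g b b)) (J : Jac L j k)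
  (h0 : ∀ t ∈ Icc (0 : ℝ) 1, ∀ b, |g (L t (j 0)) b| ≤ μ * √(g b b))
include κ0 κ1 μ0 sym bd J h0

theorem est : ∃ m : ℝ, 3 * m ≤ 4 * (μ + κ * √(g (k 0) (k 0))) ∧
    √(g (k 0 - (j 1 - j 0)) (k 0 - (j 1 - j 0))) ≤ m ∧ ∀ t ∈ Icc (0 : ℝ) 1,
      √(g (k t - k 0) (k t - k 0)) ≤ m ∧ √(g (j t - j 0) (j t - j 0)) ≤ √(g (k 0) (k 0)) + m := by
  have cj : ContinuousOn (fun t => j t - j 0 - t • k 0) (Icc 0 1) :=
    (ContinuousOn.sub (fun t ht => (J t ht).1.continuousWithinAt) continuousOn_const).sub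
      (continuousOn_id.smul continuousOn_const)
  obtain ⟨t₀, ht₀, hS⟩ := isCompact_Icc.exists_isMaxOn (nonempty_Icc.2 zero_le_one)
    ((g.continuous.comp_continuousOn cj).clm_apply cj).sqrt
  set S := √(g (j t₀ - j 0 - t₀ • k 0) (j t₀ - j 0 - t₀ • k 0))
  have S0 : 0 ≤ S := Real.sqrt_nonneg _
  have k1 : ∀ t ∈ Icc (0 : ℝ) 1, √(g (j t - j 0) (j t - j 0)) ≤ √(g (k 0) (k 0)) + S := by
    intro t ht
    have h1 := tri hs hp (j t - j 0 - t • k 0) (t • k 0)
    have h2 : √(g (t • k 0) (t • k 0)) ≤ √(g (k 0) (k 0)) := Real.sqrt_le_sqrt (by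
      simp only [map_smul, smul_apply, smul_eq_mul]
      exact (mul_le_of_le_one_left (mul_nonneg ht.1 (hp _)) ht.2).trans
        (mul_le_of_le_one_left (hp _) ht.2))
    rw [sub_add_cancel] at h1
    have h3 : √(g (j t - j 0 - t • k 0) (j t - j 0 - t • k 0)) ≤ S := hS ht
    linarith
  have m0 : 0 ≤ μ + κ * (√(g (k 0) (k 0)) + S) := by positivity
  have k2 := mv hp m0 (fun t ht => (J t ht).2) fun t ht b => by
    have e : g (L t (j t)) b = g (L t (j 0)) b + g (L t (j t - j 0)) b := by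
      simp only [sym t ht, map_sub, sub_apply, add_sub_cancel]
    rw [e, add_mul]
    exact (abs_add_le _ _).trans (add_le_add (h0 t ht b) ((bd t ht _ b).trans
      (mul_le_mul_of_nonneg_right (mul_le_mul_of_nonneg_left (k1 t ht) κ0) (Real.sqrt_nonneg _))))
  have k3 := mv hp (f := fun t => j t - t • k 0) m0
    (fun t ht => (J t ht).1.sub ((hasDerivWithinAt_id t _).smul_const (k 0))) fun t ht b => by
      rw [one_smul]
      exact (cs hs hp _ b).trans (mul_le_mul_of_nonneg_right (k2 t ht) (Real.sqrt_nonneg _))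
  simp only [zero_smul, sub_zero, sub_right_comm _ _ (j 0)] at k3
  have k4 : S ≤ _ := k3 t₀ ht₀
  refine ⟨_, by nlinarith, ?_, fun t ht => ⟨k2 t ht, by linarith [k1 t ht]⟩⟩
  have := k3 1 ⟨zero_le_one, le_rfl⟩
  rwa [one_smul, ← neg_sub, map_neg, map_neg, neg_apply, neg_neg] at this

theorem est2 : √(g (k 0 - (j 1 - j 0)) (k 0 - (j 1 - j 0))) ≤
      2 * (μ + κ * √(g (j 1 - j 0) (j 1 - j 0))) ∧ ∀ t ∈ Icc (0 : ℝ) 1,
    |g (k t) (k t) + g (j t) (L t (j t)) - g (j 1 - j 0) (j 1 - j 0) - g (L t (j 0)) (j 0)| ≤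
      100 * (μ ^ 2 + μ * √(g (j 1 - j 0) (j 1 - j 0)) + κ * g (j 1 - j 0) (j 1 - j 0)) := by
  obtain ⟨m, h1, h2, h3⟩ := est hs hp κ0 κ1 μ0 sym bd J h0
  have h4 := tri hs hp (k 0 - (j 1 - j 0)) (j 1 - j 0)
  rw [sub_add_cancel] at h4
  have w2 := Real.sq_sqrt (hp (j 1 - j 0))
  have w0 := Real.sqrt_nonneg (g (j 1 - j 0) (j 1 - j 0))
  have m0 := (Real.sqrt_nonneg _).trans h2
  have h5 : m ≤ 2 * (μ + κ * √(g (j 1 - j 0) (j 1 - j 0))) := by
    nlinarith [mul_le_mul_of_nonneg_left (h4.trans (add_le_add_left h2 _)) κ0]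
  refine ⟨h2.trans h5, fun t ht => ?_⟩
  have e1 : g (j t) (L t (j t)) - g (L t (j 0)) (j 0) =
      2 * g (L t (j 0)) (j t - j 0) + g (L t (j t - j 0)) (j t - j 0) := by
    have := sym t ht (j 0) (j t)
    rw [sym t ht (j t - j 0), hs (j t - j 0), map_sub (g (L t (j t - j 0))), sym t ht (j t - j 0),
      sym t ht (j t - j 0)]
    simp only [map_sub, sub_apply, hs (j t) (L t (j 0)), hs (j 0) (L t (j 0))]
    linarith
  have e2 : g (k t) (k t) - g (j 1 - j 0) (j 1 - j 0) =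
      2 * g (k t - (j 1 - j 0)) (j 1 - j 0) + g (k t - (j 1 - j 0)) (k t - (j 1 - j 0)) := by
    generalize j 1 - j 0 = d
    simp only [map_sub, sub_apply, hs d (k t)]
    ring
  have b1 := tri hs hp (k t - k 0) (k 0 - (j 1 - j 0))
  rw [sub_add_sub_cancel] at b1
  have b2 := abs_le.1 (cs hs hp (k t - (j 1 - j 0)) (j 1 - j 0))
  have b3 := abs_le.1 (h0 t ht (j t - j 0))
  have b4 := abs_le.1 (bd t ht (j t - j 0) (j t - j 0))
  have a2 := Real.sq_sqrt (hp (k t - (j 1 - j 0)))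
  have a0 := Real.sqrt_nonneg (g (k t - (j 1 - j 0)) (k t - (j 1 - j 0)))
  have y0 := Real.sqrt_nonneg (g (j t - j 0) (j t - j 0))
  obtain ⟨h6, h7⟩ := h3 t ht
  set w := √(g (j 1 - j 0) (j 1 - j 0))
  set a := √(g (k t - (j 1 - j 0)) (k t - (j 1 - j 0)))
  set y := √(g (j t - j 0) (j t - j 0))
  have κw : κ * w ≤ 1 / 4 * w := mul_le_mul_of_nonneg_right κ1 w0
  have c1 : a ≤ 4 * (μ + κ * w) := by linarith
  have c2 : y ≤ 2 * w + 4 * μ := by linarith
  have c3 := mul_le_mul_of_nonneg_right c1 w0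
  have c4 := pow_le_pow_left₀ a0 c1 2
  have c5 := mul_le_mul_of_nonneg_left c2 μ0
  have c6 := mul_le_mul_of_nonneg_left (pow_le_pow_left₀ y0 c2 2) κ0
  have c7 := mul_le_mul_of_nonneg_left κw μ0
  have c8 := mul_le_mul_of_nonneg_left κw (mul_nonneg κ0 w0)
  have c9 := mul_le_mul_of_nonneg_right κ1 (sq_nonneg μ)
  have d1 := mul_nonneg μ0 w0
  have d2 := mul_nonneg κ0 (sq_nonneg w)
  rw [← w2] at e2 ⊢
  rw [abs_le]
  constructor <;> nlinarith [sq_nonneg μ, sq_nonneg a]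

end JabA

open JabA in
theorem jab : JAB := by
  intro E _ _ g L κ μ j k hs hp κ0 κ1 μ0 sym bd J
  have one : (1 : ℝ) ∈ Icc (0 : ℝ) 1 := ⟨zero_le_one, le_rfl⟩
  refine ⟨fun v hv => ?_, fun h0 => ⟨?_, ?_, fun β j' k' J' h0' e hβ => ?_⟩⟩
  · have h1 := norm_image_sub_le_of_norm_deriv_le_segment' (f := fun s => g (k s) v) (C := 0)
      (fun s hs => (g.flip v).hasFDerivAt.comp_hasDerivWithinAt s (J s hs).2)
      fun s hs => by simp [sym s (Ico_subset_Icc_self hs), hv s (Ico_subset_Icc_self hs)]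
    have h2 := norm_image_sub_le_of_norm_deriv_le_segment' (f := fun s => g (j s - s • k 0) v)
      (C := 0) (fun s hs => (g.flip v).hasFDerivAt.comp_hasDerivWithinAt s
        ((J s hs).1.sub ((hasDerivWithinAt_id s _).smul_const (k 0))))
      (fun s hs => by simpa using h1 s (Ico_subset_Icc_self hs)) 1 one
    simp only [one_smul, zero_smul, sub_zero, zero_mul, norm_le_zero_iff, map_sub,
      sub_apply] at h2 ⊢
    linarith
  · obtain ⟨m, h1, h2, -⟩ := est hs hp κ0 κ1 μ0 sym bd J h0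
    have : 0 ≤ μ + κ * √(g (k 0) (k 0)) := by positivity
    linarith
  · have : 0 ≤ μ + κ * √(g (j 1 - j 0) (j 1 - j 0)) := by positivity
    linarith [(est2 hs hp κ0 κ1 μ0 sym bd J h0).1]
  · have h1 := (est2 hs hp κ0 κ1 μ0 sym bd J h0).2
    have h2 := (est2 hs hp κ0 κ1 μ0 sym bd J' h0').2
    rw [e] at h2
    have h3 := norm_image_sub_le_of_norm_deriv_le_segment' (f := fun s => g (j s) (k s) +
      g (j' s) (k' s) - s * (2 * g (j 1 - j 0) (j 1 - j 0))) (C := β + 200 * (μ ^ 2 +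
        μ * √(g (j 1 - j 0) (j 1 - j 0)) + κ * g (j 1 - j 0) (j 1 - j 0)))
      (fun s hs => ((g.hasDerivWithinAt_of_bilinear (J s hs).1 (J s hs).2).add
        (g.hasDerivWithinAt_of_bilinear (J' s hs).1 (J' s hs).2)).sub
          ((hasDerivWithinAt_id s _).mul_const _)) (fun s hs => by
        have a := abs_le.1 (h1 s (Ico_subset_Icc_self hs))
        have b := abs_le.1 (h2 s (Ico_subset_Icc_self hs))
        have c := abs_le.1 (hβ s (Ico_subset_Icc_self hs))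
        rw [Real.norm_eq_abs, abs_le]
        constructor <;> linarith) 1 one
    rw [Real.norm_eq_abs, abs_le] at h3
    rw [abs_le]
    constructor <;> linarith

end Vale.Agent.P253W.Y.G
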