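import Vale.Agent.P253W.Y.G.Defs

/-!
# P253W, block Y, row JF: the derivatives of the square of the distance
-/

open scoped ContDiff Topology ComplexConjugate ComplexOrder Matrix
open Set Metric Filter Vale.Agent.P253Z
open Vale.Agent.P272.K (Cm)
open Vale.Agent.P253.R2.H451 (levi2)
open Complex (I)

noncomputable section

namespace Vale.Agent.P253W.Y.G

namespace Jfa

variable {n : ℕ} {C G r s : ℝ} {W : Cm n → Mx n} {c T : ℝ × Cm n × Cm n → Cm n}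
  {lg : Cm n × Cm n → Cm n} {z : Cm n × Cm n}

theorem nrm (hL : Lg r (fun w => c (1, w)) lg) (hz : z ∈ ball (0 : Cm n) r ×ˢ ball (0 : Cm n) r) :
    c (1, z.1, lg z) = z.2 ∧ ‖lg z‖ < 4 * r := by
  obtain ⟨h1, h2⟩ := hL.ex_lg _ hz.1 _ hz.2
  refine ⟨h1, h2.trans_lt ?_⟩
  linarith [norm_sub_le z.2 z.1, mem_ball_zero_iff.1 hz.1, mem_ball_zero_iff.1 hz.2]

theorem om (hF : Fl r W c T) (hL : Lg r (fun w => c (1, w)) lg)
    (hz : z ∈ ball (0 : Cm n) r ×ˢ ball (0 : Cm n) r) : (z.1, lg z) ∈ Om n r :=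
  ⟨hz.1, mem_ball_zero_iff.2 ((nrm hL hz).2.trans (by linarith [hF.small.1]))⟩

theorem base (hC : 1 ≤ C) (hS : SK C s W) (hF : Fl r W c T) (hr : 40 * C * r ≤ 1)
    (hL : Lg r (fun w => c (1, w)) lg) (hz : z ∈ ball (0 : Cm n) r ×ˢ ball (0 : Cm n) r) :
    z.1 ∈ ball (0 : Cm n) 1 ∧ (∀ a b, gr (W z.1) a b = gr (W z.1) b a) ∧
      (∀ a, 0 ≤ gr (W z.1) a a) ∧ 5 * qf (W z.1) (lg z) / s ^ 2 ≤ 1 / 4 := by
  have h0 : r ≤ 1 / 40 := by nlinarith [hF.small.1]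
  have h1 : z.1 ∈ ball (0 : Cm n) 1 := ball_subset_ball (by linarith) hz.1
  have h2 := hS.pos _ h1
  refine ⟨h1, gr_comm h2.isHermitian, fun a => ?_, ?_⟩
  · have := h2.posSemidef.dotProduct_mulVec_nonneg (star a)
    rw [star_star] at this
    exact (Complex.nonneg_iff.1 this).1
  · have h3 := hS.up _ h1 (lg z)
    have h4 : ‖lg z‖ ^ 2 ≤ (4 * r) ^ 2 := pow_le_pow_left₀ (norm_nonneg _) (nrm hL hz).2.le 2
    have h5 : C * ‖lg z‖ ^ 2 ≤ 1 / 20 := by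
      have : C * ‖lg z‖ ^ 2 ≤ C * (4 * r) ^ 2 := by gcongr
      nlinarith [hF.small.1]
    have hs := hS.s_pos
    rw [div_le_iff₀ (by positivity)]
    nlinarith [mul_le_mul_of_nonneg_left h5 (sq_nonneg s)]

theorem jac (h2 : HES n) (hS : SK C s W) (hF : Fl r W c T) (hL : Lg r (fun w => c (1, w)) lg)
    (hz : z ∈ ball (0 : Cm n) r ×ˢ ball (0 : Cm n) r) {P Q : Mx n} {L : ℝ → Cm n → Cm n}
    (hJ : Jd G s W c T (z.1, lg z) P Q L) (ζ : Cm n × Cm n) :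
    ∃ j k, Jac L j k ∧ j 0 = ζ.1 ∧ j 1 = ζ.2 ᵥ* Q ∧
      k 0 = fderiv ℝ lg z ζ + ga W z.1 (lg z) ζ.1 ∧
      fderiv ℝ (dq W lg) z ζ = 2 * gr (W z.1) (k 0) (lg z) ∧
      Hs W c T lg z ζ = gr (W z.1) (j 1) (k 1) - gr (W z.1) (j 0) (k 0) := by
  obtain ⟨j, k, a1, a2, a3, a4, a5⟩ := hJ.jac (ζ.1, fderiv ℝ lg z ζ)
  obtain ⟨b1, b2⟩ := (h2 r W c T lg hS.toKa hF hL).1 z hz ζ
  rw [b1] at a4
  refine ⟨j, k, a1, a2, a4, a3, by rw [b2, a3], ?_⟩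
  rw [a2, a3, a4, a5, hJ.iso, (nrm hL hz).1]
  rfl

theorem ineq {D M Ω s μ u A B : ℝ} (hD : 0 ≤ D) (hM : 0 ≤ M) (hs : 0 < s)
    (hκ : 5 * D / s ^ 2 ≤ 1 / 4) (hμ : μ ^ 2 = 25 * D ^ 2 * M / s ^ 2) (hu : u ^ 2 = Ω)
    (hA : √A ≤ 4 * (μ + 5 * D / s ^ 2 * u))
    (hB : B ≤ 2 * D * M + 200 * (μ ^ 2 + μ * u + 5 * D / s ^ 2 * Ω)) :
    A ≤ 10000 * D ^ 2 * (M / s ^ 2 + Ω / s ^ 4) ∧ 2 * B ≤ 10000 * D * (M + Ω / s ^ 2) := by
  have hΩ : 0 ≤ Ω := hu ▸ sq_nonneg u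
  constructor
  · have h1 : A ≤ (4 * (μ + 5 * D / s ^ 2 * u)) ^ 2 := Real.sqrt_le_left ((Real.sqrt_nonneg _).trans
      hA) |>.1 hA
    have h2 : (5 * D / s ^ 2 * u) ^ 2 = 25 * (D ^ 2 * (Ω / s ^ 4)) := by
      rw [mul_pow, hu]; field_simp; ring
    have h3 : μ ^ 2 = 25 * (D ^ 2 * (M / s ^ 2)) := by rw [hμ]; ring
    have h4 : 0 ≤ D ^ 2 * (Ω / s ^ 4) := by positivity
    have h5 : 0 ≤ D ^ 2 * (M / s ^ 2) := by positivity
    nlinarith [sq_nonneg (μ - 5 * D / s ^ 2 * u)]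
  · have h1 : μ ^ 2 ≤ 5 / 4 * (D * M) := by
      have : μ ^ 2 = 5 * (5 * D / s ^ 2) * (D * M) := by rw [hμ]; ring
      rw [this]
      nlinarith [mul_nonneg hD hM]
    have h2 : μ * u ≤ 5 / 2 * (D * M + D * (Ω / s ^ 2)) := by
      refine abs_le_of_sq_le_sq' ?_ (by positivity) |>.2
      have : (μ * u) ^ 2 = 25 * ((D * M) * (D * (Ω / s ^ 2))) := by
        rw [mul_pow, hμ, hu]; ring
      rw [this]
      nlinarith [sq_nonneg (D * M - D * (Ω / s ^ 2))]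
    have h3 : 5 * D / s ^ 2 * Ω = 5 * (D * (Ω / s ^ 2)) := by ring
    have h4 : 0 ≤ D * (Ω / s ^ 2) := by positivity
    nlinarith [mul_nonneg hD hM]

end Jfa

open Jfa

/-- **JF** -/
theorem jf (n : ℕ) (h1 : JAB) (h2 : HES n) (h : CUR n) : JF n := by
  intro C G r s W c T lg hC hS hF hr hL hJ
  have hs := hS.s_pos
  have first : ∀ z ∈ ball (0 : Cm n) r ×ˢ ball (0 : Cm n) r, ∀ P Q L,
      Jd G s W c T (z.1, lg z) P Q L → ∀ ζ : Cm n × Cm n,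
      fderiv ℝ (dq W lg) z ζ = 2 * gr (W z.1) (ζ.2 ᵥ* Q - ζ.1) (lg z) := by
    intro z hz P Q L hd ζ
    obtain ⟨-, b2, b3, b4⟩ := base hC hS hF hr hL hz
    obtain ⟨j, k, a1, a2, a3, -, a5, -⟩ := jac h2 hS hF hL hz hd ζ
    rw [a5, (h1 _ _ L _ 0 j k b2 b3 (by have := b3 (lg z); positivity) b4 le_rfl hd.sym hd.bd a1).1
      _ hd.ker, a2, a3]
  have second := (h2 r W c T lg hS.toKa hF hL).2 fun z hz ζ => by
    obtain ⟨P, Q, L, hd⟩ := hJ _ (om hF hL hz)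
    have e := hd.iso ζ.2 (T (1, z.1, lg z))
    rw [hd.vel, (nrm hL hz).1] at e
    rw [first z hz P Q L hd, map_sub, sub_apply, ← e]
  intro p hp q hq
  have hz : (p, q) ∈ ball (0 : Cm n) r ×ˢ ball (0 : Cm n) r := ⟨hp, hq⟩
  obtain ⟨P, Q, L, hd⟩ := hJ _ (om hF hL hz)
  refine ⟨Q, Matrix.det_ne_zero_of_right_inverse hd.inv, fun V m hm hR a x =>
    ⟨first _ hz P Q L hd _, ?_⟩⟩
  obtain ⟨b1, b2, b3, b4⟩ := base hC hS hF hr hL hz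
  obtain ⟨j, k, a1, a2, a3, a4, -, a6⟩ := jac h2 hS hF hL hz hd (a • V, x)
  obtain ⟨j', k', a1', a2', a3', -, -, a6'⟩ := jac h2 hS hF hL hz hd (I • (a • V, x))
  have hD : 0 ≤ qf (W p) (lg (p, q)) := b3 _
  have e1 : j 1 - j 0 = x ᵥ* Q - a • V := by rw [a2, a3]
  have e2 : j' 1 - j' 0 = I • (x ᵥ* Q - a • V) := by
    rw [a2', a3', smul_sub, ← Matrix.smul_vecMul]; rfl
  obtain ⟨-, c2, c3⟩ := (h1 _ _ L _ (5 * qf (W p) (lg (p, q)) / s * (√m * ‖a‖)) j k b2 b3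
    (by positivity) b4 (by positivity) hd.sym hd.bd a1).2 fun t ht b => by
      rw [a2]; exact (hd.ric V m hm hR a t ht).1 b
  have c4 := c3 _ j' k' a1' (fun t ht b => by
      have := (hd.ric V m hm hR (I * a) t ht).1 b
      rw [norm_mul, Complex.norm_I, one_mul, mul_smul] at this
      rw [a2']; exact this)
    (by rw [e1, e2, gr_apply, gr_apply, hf_smul, hf_smul', ← mul_assoc, Complex.mul_conj']; simp)
    fun t ht => by rw [a2, a2']; exact (hd.ric V m hm hR a t ht).2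
  rw [← a6, ← a6', e1] at c4
  rw [e1, a4, (h _ W hS.toKa _ b1).sym] at c2
  obtain ⟨d1, d2⟩ := ineq (M := m * ‖a‖ ^ 2) hD (by positivity) hs b4
    (by rw [mul_pow, mul_pow, Real.sq_sqrt hm]; ring) (Real.sq_sqrt (b3 _)) c2 c4
  refine ⟨d1, le_trans (le_of_eq ?_) d2⟩
  rw [second _ hz, ← abs_two, ← abs_mul, abs_two, gr_self]
  congr 1
  ring

end Vale.Agent.P253W.Y.G
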