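import Vale.Agent.P253W.Y.G.Defs

/-!
# P253W, row Y.G.JT: the Jacobi fields in a parallel frame
-/

open scoped Matrix ComplexOrder
open Set Metric Vale.Agent.P253Z
open Vale.Agent.P272.K (Cm)
open Complex (I)

noncomputable section

namespace Vale.Agent.P253W.Y.G

theorem qf_smul' {n : ℕ} (A : Mx n) (c : ℂ) (a : Cm n) : qf A (c • a) = ‖c‖ ^ 2 * qf A a := by
  rw [← gr_self, ← gr_self, gr_apply, gr_apply, hf_smul, hf_smul', ← mul_assoc, Complex.mul_conj,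
    Complex.re_ofReal_mul, Complex.normSq_eq_norm_sq]

theorem jt (n : ℕ) (h1 : CB n) (h2 : JAC n) (h3 : PAR n) (h4 : RIC n) : JT n := by
  intro C G r s W c T hC hW hG hb hr F w hw
  have m1 : ∀ t ∈ Icc (0 : ℝ) 1, c (t, w) ∈ ball (0 : Cm n) 1 := fun t ht =>
    ball_subset_ball (by norm_num) (F.mem hw ht)
  have geo : IsGeo W (ball 0 1) (fun t => c (t, w)) fun t => T (t, w) := fun t ht =>
    ⟨m1 t ht, (F.ode w hw t ht).1.hasDerivWithinAt, (F.ode w hw t ht).2.hasDerivWithinAt⟩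
  have v8 := mem_ball_zero_iff.1 hw.2
  have G0 : 0 ≤ G := by linarith
  obtain ⟨P, Q, p⟩ := h3 (2 * G * ‖w.2‖) _ W _ _ hW.toKa geo (by positivity)
    (by nlinarith [mul_le_mul_of_nonneg_left v8.le G0]) fun t ht a =>
      (hb _ (F.mem hw ht) _ a).trans (mul_le_mul_of_nonneg_right
        (by nlinarith [mul_le_mul_of_nonneg_left (F.bd w hw t ht).2 G0]) (norm_nonneg _))
  have o0 : (0 : ℝ) ∈ Icc (0 : ℝ) 1 := left_mem_Icc.2 zero_le_one
  have o1 : (1 : ℝ) ∈ Icc (0 : ℝ) 1 := right_mem_Icc.2 zero_le_one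
  have qp : ∀ t ∈ Icc (0 : ℝ) 1, ∀ a : Cm n, a ᵥ* Q t ᵥ* P t = a := fun t ht a => by
    rw [Matrix.vecMul_vecMul, mul_eq_one_comm.1 (p.inv t ht), Matrix.vecMul_one]
  have iso : ∀ t ∈ Icc (0 : ℝ) 1, ∀ a b, gr (W (c (t, w))) (a ᵥ* P t) (b ᵥ* P t) = gr (W w.1) a b :=
    fun t ht a b => by rw [gr_apply, p.iso t ht, F.c0, gr_apply]
  have key : ∀ t ∈ Icc (0 : ℝ) 1, ∀ a b, gr (W w.1) (a ᵥ* Q t) b = gr (W (c (t, w))) a (b ᵥ* P t) :=
    fun t ht a b => by rw [← iso t ht, qp t ht]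
  have iq : ∀ t ∈ Icc (0 : ℝ) 1, ∀ a, qf (W (c (t, w))) (a ᵥ* P t) = qf (W w.1) a :=
    fun t ht a => iso t ht a a
  have vel : ∀ t ∈ Icc (0 : ℝ) 1, w.2 ᵥ* P t = T (t, w) := fun t ht => by
    rw [← p.vel t ht, F.T0]
  have iT : ∀ t ∈ Icc (0 : ℝ) 1, qf (W (c (t, w))) (T (t, w)) = qf (W w.1) w.2 := fun t ht => by
    rw [← vel t ht, iq t ht]
  have Q0 : Q 0 = 1 := by simpa [p.zero] using p.inv 0 o0
  have her := fun y hy => (hW.pos y hy).isHermitian
  have w1 : w.1 ∈ ball (0 : Cm n) 1 := F.c0 w ▸ m1 0 o0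
  have cb := fun t ht => h1 C s W hC hW _ (m1 t ht) (T (t, w))
  have D0 : 0 ≤ qf (W w.1) w.2 := by
    have := hW.lo _ w1 w.2
    by_contra! hl
    nlinarith [mul_nonneg (sq_nonneg s) (sq_nonneg ‖w.2‖)]
  have s0 := hW.s_pos
  refine ⟨P 1, Q 1, fun t a => Lc W (c (t, w)) (T (t, w)) (a ᵥ* P t) ᵥ* Q t,
    mul_eq_one_comm.1 (p.inv 1 o1), fun a => (p.near 1 o1 a).trans_eq (by ring),
    fun a b => by rw [key 1 o1, qp 1 o1], ?_, fun ξ => ?_, fun t ht a b => ?_, fun t ht => ?_,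
    fun t ht a b => ?_, fun V m hm R a t ht => ?_⟩
  · rw [← vel 1 o1, Matrix.vecMul_vecMul, p.inv 1 o1, Matrix.vecMul_one]
  · obtain ⟨j0, k0, d⟩ := h2 r W c T hW.toKa F w hw ξ
    refine ⟨fun t => Jf c w ξ t ᵥ* Q t, fun t => Df W c T w ξ t ᵥ* Q t, fun t ht => ⟨?_, ?_⟩,
      by simp only [j0, Q0, Matrix.vecMul_one], by simp only [k0, Q0, Matrix.vecMul_one], rfl, rfl⟩
    · simpa only [sub_add_cancel] using p.dQ t ht _ _ (d t ht).1.hasDerivWithinAt
    · simpa only [sub_add_cancel, qp t ht] using p.dQ t ht _ _ (d t ht).2.hasDerivWithinAt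
  · rw [key t ht, gr_comm (her _ w1), key t ht, (cb t ht).1, gr_comm (her _ (m1 t ht))]
  · simp only [vel t ht, (cb t ht).2.1, Matrix.zero_vecMul]
  · rw [key t ht]
    refine ((cb t ht).2.2.1 _ _).trans ?_
    rw [iT t ht, iq t ht]
    refine mul_le_mul_of_nonneg_right ?_ (Real.sqrt_nonneg _)
    have := Real.sqrt_le_sqrt (hW.ric _ (m1 t ht) (a ᵥ* P t))
    rw [iq t ht, Real.sqrt_mul (sq_nonneg s), Real.sqrt_sq s0.le] at this
    refine le_trans (le_of_eq ?_) (mul_le_mul_of_nonneg_left this (by positivity))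
    field_simp
  · have hr : qf (W w.1) w.2 = 0 ∨
        qf (rho W (c (t, w))) ((a • V) ᵥ* P t) ≤ m * ‖a‖ ^ 2 := by
      by_cases e : w.2 = 0
      · exact .inl (by rw [e, ← gr_self, map_zero])
      · have := h4 _ m W _ _ P Q V hW.toKa geo p (by rwa [F.T0]) (by rwa [F.c0, F.T0]) t ht
        rw [Matrix.smul_vecMul, qf_smul', mul_comm]
        exact .inr (mul_le_mul_of_nonneg_right this (sq_nonneg _))
    refine ⟨fun b => ?_, ?_⟩
    · rw [key t ht]
      refine ((cb t ht).2.2.1 _ _).trans ?_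
      rw [iT t ht, iq t ht]
      refine mul_le_mul_of_nonneg_right ?_ (Real.sqrt_nonneg _)
      rcases hr with e | e
      · simp [e]
      · refine mul_le_mul_of_nonneg_left ((Real.sqrt_le_sqrt e).trans_eq ?_) (by positivity)
        rw [Real.sqrt_mul hm, Real.sqrt_sq (norm_nonneg _)]
    · rw [key t ht, key t ht, Matrix.smul_vecMul I]
      refine ((cb t ht).2.2.2.1 _).trans ?_
      rw [iT t ht]
      rcases hr with e | e
      · simp [e]
      · exact mul_le_mul_of_nonneg_left e (by positivity)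

end Vale.Agent.P253W.Y.G
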