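import Vale.Agent.P253W.Y.G.Defs
import Mathlib.Analysis.Calculus.InverseFunctionTheorem.ContDiff

/-!
# P253W, block Y, row LG: the inverse of the exponential map
-/

open scoped ContDiff Topology
open Set Metric Filter
open Vale.Agent.P272.K (Cm)

noncomputable section

namespace Vale.Agent.P253W.Y.G

/-- smooth local inverses -/
theorem linv {E : Type} [NormedAddCommGroup E] [NormedSpace ℝ E] [FiniteDimensional ℝ E]
    {Φ : E → E} {x : E} (c : ContDiffAt ℝ ∞ Φ x) (hA : ∀ v, fderiv ℝ Φ x v = 0 → v = 0) :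
    ∃ Ψ : E → E, ContDiffAt ℝ ∞ Ψ (Φ x) ∧ Ψ (Φ x) = x ∧ ∀ᶠ y in 𝓝 (Φ x), Φ (Ψ y) = y := by
  have := FiniteDimensional.complete ℝ E
  let L := (LinearEquiv.ofInjectiveEndo (fderiv ℝ Φ x : E →ₗ[ℝ] E)
    ((injective_iff_map_eq_zero _).2 hA)).toContinuousLinearEquiv
  have n0 : (∞ : WithTop ℕ∞) ≠ 0 := by simp
  have d : HasFDerivAt Φ (L : E →L[ℝ] E) x := (c.differentiableAt n0).hasFDerivAt
  exact ⟨c.localInverse d n0, c.to_localInverse d n0, c.localInverse_apply_image d n0,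
    (c.hasStrictFDerivAt' d n0).eventually_right_inverse⟩

theorem lg (n : ℕ) : LG n := by
  intro r ex r0 sm z0 near
  have d := sm.differentiable (by simp)
  have ap : ∀ p ∈ ball (0 : Cm n) r, ApproximatesLinearOn (fun v => ex (p, v))
      (ContinuousLinearMap.id ℝ (Cm n)) (ball 0 (8 * r)) (1 / 4) := fun p hp x hx y hy => by
    simpa using (convex_ball (0 : Cm n) (8 * r)).norm_image_sub_le_of_norm_hasFDerivWithin_le'
      (C := 1 / 4) (φ := ContinuousLinearMap.id ℝ (Cm n))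
      (fun v _ => ((d (p, v)).hasFDerivAt.comp v (hasFDerivAt_prodMk_right p v)).hasFDerivWithinAt)
      (fun v hv => ContinuousLinearMap.opNorm_le_bound _ (by norm_num) (near (p, v) ⟨hp, hv⟩)) hy hx
  obtain ⟨l, hl⟩ : ∃ l : Cm n × Cm n → Cm n, ∀ p ∈ ball (0 : Cm n) r, ∀ v ∈ ball (0 : Cm n) (8 * r),
      l (p, ex (p, v)) = v := by
    classical
    refine ⟨fun z => if h : ∃ v ∈ ball (0 : Cm n) (8 * r), ex (z.1, v) = z.2 then h.choose else 0,
      fun p hp v hv => ?_⟩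
    have h : ∃ v' ∈ ball (0 : Cm n) (8 * r), ex (p, v') = ex (p, v) := ⟨v, hv, rfl⟩
    have := ap p hp _ h.choose_spec.1 v hv
    simp only [h.choose_spec.2, sub_self, ContinuousLinearMap.id_apply, zero_sub, norm_neg] at this
    refine (dif_pos h).trans (sub_eq_zero.1 (norm_eq_zero.1 (le_antisymm ?_ (norm_nonneg _))))
    push_cast at this
    linarith
  have k : ∀ p ∈ ball (0 : Cm n) r, ∀ q ∈ ball (0 : Cm n) r, ∃ v ∈ ball (0 : Cm n) (8 * r),
      ex (p, v) = q ∧ ‖v‖ ≤ 2 * ‖q - p‖ := fun p hp q hq => by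
    have s : closedBall (0 : Cm n) (2 * ‖q - p‖) ⊆ ball 0 (8 * r) := closedBall_subset_ball (by
      linarith [norm_sub_le q p, mem_ball_zero_iff.1 hp, mem_ball_zero_iff.1 hq])
    obtain ⟨v, hv, e⟩ := (ap p hp).surjOn_closedBall_of_nonlinearRightInverse
      ⟨id, 1, fun y => by simp, fun _ => rfl⟩ (by positivity) s (show q ∈ _ by
        rw [mem_closedBall_iff_norm, z0]
        push_cast
        linarith [norm_nonneg (q - p)])
    exact ⟨v, s hv, e, mem_closedBall_zero_iff.1 hv⟩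
  refine ⟨l, ?_, fun p hp q hq => ?_, fun p hp v hv _ => hl p hp v hv⟩
  · rintro ⟨p, q⟩ ⟨hp, hq⟩
    obtain ⟨v, hv, rfl, -⟩ := k p hp q hq
    obtain ⟨Ψ, h1, h2, h3⟩ := linv (Φ := fun w => (w.1, ex w)) (x := (p, v))
      (contDiffAt_fst.prodMk sm.contDiffAt) (by
        rintro ⟨a, u⟩ h
        have h := (DFunLike.congr_fun (hasFDerivAt_fst.prodMk
          (d (p, v)).hasFDerivAt).fderiv (a, u)).symm.trans h
        obtain rfl : a = 0 := congrArg Prod.fst h
        have := near (p, v) ⟨hp, hv⟩ u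
        rw [show fderiv ℝ ex (p, v) (0, u) = 0 from congrArg Prod.snd h, zero_sub, norm_neg] at this
        exact Prod.ext rfl (norm_eq_zero.1 (by linarith [norm_nonneg u])))
    have t : Tendsto Ψ (𝓝 (p, ex (p, v))) (𝓝 (p, v)) := by
      simpa only [h2] using h1.continuousAt.tendsto
    refine (h1.snd.congr_of_eventuallyEq ?_).contDiffWithinAt
    filter_upwards [h3, t ((isOpen_ball.prod isOpen_ball).mem_nhds ⟨hp, hv⟩)] with z a b
    rw [← hl _ b.1 _ b.2]
    exact congrArg l a.symm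
  · obtain ⟨v, hv, rfl, h⟩ := k p hp q hq
    rw [hl p hp v hv]
    exact ⟨rfl, h⟩

end Vale.Agent.P253W.Y.G
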