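import Vale.Agent.P253W.Y.G.Asm

/-!
# P253W, block Y: the metric is Lipschitz
-/

open scoped ContDiff Topology Matrix ComplexOrder
open Set Metric Filter
open Vale.Agent.P272.K (Cm)

noncomputable section

namespace Vale.Agent.P253W.Y.G

variable {n : ℕ}

/-- Cauchy-Schwarz -/
theorem gr_cs {U : Set (Cm n)} {W : Cm n → Mx n} (h : Ka U W) {y : Cm n} (hy : y ∈ U)
    (a b : Cm n) : |gr (W y) a b| ≤ √(qf (W y) a) * √(qf (W y) b) := by
  rw [← Real.sqrt_mul (qf_nonneg h hy a)]
  refine Real.abs_le_sqrt ?_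
  have := discrim_le_zero (a := qf (W y) b) (b := 2 * gr (W y) a b) (c := qf (W y) a) fun x => by
    have h1 := qf_nonneg h hy (a + x • b)
    rw [← gr_self] at h1
    simp only [map_add, map_smul, add_apply, smul_apply, smul_eq_mul, gr_self,
      gr_comm (h.pos y hy).1 b a] at h1
    linarith
  rw [discrim] at this
  linarith

theorem Cur.fd_qf {W : Cm n → Mx n} {z : Cm n} (h : Cur W z) (hz : (W z).IsHermitian) (v : Cm n) :
    DifferentiableAt ℝ (fun y => qf (W y) v) z ∧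
      ∀ Y, fderiv ℝ (fun y => qf (W y) v) z Y = 2 * gr (W z) (ga W z Y v) v := by
  have a := Complex.reCLM.hasFDerivAt.comp z (((h.hsm v v).differentiableAt
    (by simp)).hasFDerivAt.comp z (f := fun y => (y, v, v))
      ((hasFDerivAt_id z).prodMk (hasFDerivAt_const (v, v) z)))
  refine ⟨a.differentiableAt, fun Y => ?_⟩
  rw [show fderiv ℝ (fun y => qf (W y) v) z = _ from a.fderiv]
  change Complex.re (fderiv ℝ _ (z, v, v) (Y, 0, 0)) = _
  rw [h.cpt, Complex.add_re, zero_add, ← gr_apply, ← gr_apply, gr_comm hz v]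
  ring

theorem lip (n : ℕ) (h : CUR n) : LIP n := by
  intro C G hC hG
  refine ⟨2 * C ^ 2 * G, fun s W hW hb y hy y' hy' v => ?_⟩
  have sub : ball (0 : Cm n) (1 / 2) ⊆ ball 0 1 := ball_subset_ball (by norm_num)
  have hs := hW.s_pos
  have d (x : Cm n) (hx : x ∈ ball (0 : Cm n) (1 / 2)) :=
    (h _ W hW.toKa x (sub hx)).fd_qf (hW.pos x (sub hx)).1 v
  have up (x : Cm n) (hx : x ∈ ball (0 : Cm n) 1) (a : Cm n) : √(qf (W x) a) ≤ √C * (s * ‖a‖) := by
    refine Real.sqrt_le_iff.2 ⟨by positivity, (hW.up x hx a).trans_eq ?_⟩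
    rw [mul_pow, mul_pow, Real.sq_sqrt (by linarith)]
  have := (convex_ball (0 : Cm n) (1 / 2)).norm_image_sub_le_of_norm_fderiv_le (𝕜 := ℝ)
    (C := 2 * C * G * (s ^ 2 * ‖v‖ ^ 2)) (fun x hx => (d x hx).1) (fun x hx => ?_) hy' hy
  · refine this.trans ?_
    calc _ ≤ 2 * C * G * (C * qf (W y) v) * ‖y - y'‖ := by
          have := hW.lo y (sub hy) v
          gcongr 2 * C * G * ?_ * _
      _ = _ := by ring
  refine ContinuousLinearMap.opNorm_le_bound _ (by positivity) fun Y => ?_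
  rw [(d x hx).2, Real.norm_eq_abs, abs_mul, abs_two]
  calc _ ≤ 2 * (√C * (s * (G * ‖Y‖ * ‖v‖)) * (√C * (s * ‖v‖))) := by
        gcongr
        refine (gr_cs hW.toKa (sub hx) _ _).trans ?_
        gcongr
        · refine (up x (sub hx) _).trans ?_
          gcongr
          exact hb x hx Y v
        · exact up x (sub hx) v
    _ = 2 * (√C * √C) * G * (s ^ 2 * ‖v‖ ^ 2) * ‖Y‖ := by ring
    _ = _ := by rw [Real.mul_self_sqrt (by linarith)]

end Vale.Agent.P253W.Y.G
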