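import Vale.Agent.P253W.Y.G.Defs

/-!
# P253W, block Y: `NAT`, the connection is natural under holomorphic isometries
-/

open scoped ContDiff Topology ComplexConjugate ComplexOrder Matrix
open Set Filter Vale.Agent.P253Z
open Vale.Agent.P272.K (Cm dz)
open Complex (I)

noncomputable section

namespace Vale.Agent.P253W.Y.G

variable {n : ℕ}

theorem jc_mulVec {φ : Cm n → Cm n} {y : Cm n} (h : DifferentiableAt ℂ φ y) (V : Cm n) :
    jc φ y *ᵥ V = fderiv ℂ φ y V := by
  have hV : V = ∑ i, V i • (Pi.single i 1 : Cm n) := by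
    ext j; simp [Finset.sum_apply, Pi.single_apply]
  ext p
  have h1 : HasFDerivAt (fun y => φ y p)
      (((ContinuousLinearMap.proj p).comp (fderiv ℂ φ y)).restrictScalars ℝ) y :=
    (hasFDerivAt_pi'.1 h.hasFDerivAt p).restrictScalars ℝ
  have h2 : ∀ i, dz i (fun y => φ y p) y = fderiv ℂ φ y (Pi.single i 1) p := fun i => by
    have e1 : (Pi.single i I : Cm n) = I • Pi.single i (1 : ℂ) := by
      rw [← Pi.single_smul, smul_eq_mul, mul_one]
    unfold dz
    rw [h1.fderiv]
    simp only [ContinuousLinearMap.coe_restrictScalars', e1, map_smul, smul_eq_mul,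
      ContinuousLinearMap.comp_apply, ContinuousLinearMap.proj_apply]
    have := Complex.I_mul_I
    linear_combination (-(fderiv ℂ φ y) (Pi.single i 1) p / 2) * this
  conv_rhs => rw [hV]
  simp [jc, Matrix.mulVec, dotProduct, h2, map_sum, Finset.sum_apply, mul_comm]

theorem hf_pb (S H : Mx n) (a b : Cm n) : hf (pb S H) a b = hf H (S *ᵥ a) (S *ᵥ b) := by
  have h : S.map (starRingEnd ℂ) *ᵥ star b = star (S *ᵥ b) := by
    ext i; simp [Matrix.mulVec, dotProduct]
  rw [hf, hf, pb, ← Matrix.mulVec_mulVec, ← Matrix.mulVec_mulVec, h, Matrix.dotProduct_mulVec,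
    Matrix.vecMul_transpose]

theorem hf_eq_zero {A : Mx n} (h : A.PosDef) {a : Cm n} (h0 : hf A a a = 0) : a = 0 := by
  by_contra ha
  have := h.dotProduct_mulVec_pos (x := star a) (by simpa using ha)
  rw [star_star] at this
  exact this.ne' h0

theorem Cur.hfd {W : Cm n → Mx n} {φ u v : Cm n → Cm n} {z : Cm n} {φ' u' v' : Cm n →L[ℝ] Cm n}
    (c : Cur W (φ z)) (hφ : HasFDerivAt φ φ' z) (hu : HasFDerivAt u u' z)
    (hv : HasFDerivAt v v' z) (X : Cm n) :
    fderiv ℝ (fun y => hf (W (φ y)) (u y) (v y)) z X =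
      hf (W (φ z)) (u' X + ga W (φ z) (φ' X) (u z)) (v z) +
        hf (W (φ z)) (u z) (v' X + ga W (φ z) (φ' X) (v z)) := by
  have h1 := ((c.hsm (u z) (v z)).differentiableAt (by simp)).hasFDerivAt
  have h2 := h1.comp z (hφ.prodMk (hu.prodMk hv))
  rw [← c.cpt]
  exact congrArg (fun L => L X) h2.fderiv

theorem nat (n : ℕ) (h : CUR n) : NAT n := by
  refine ⟨fun U U' W W' φ z X V hW hW' hz hz' hφ he => ?_, fun U W z v hW hz => ?_⟩
  · have c := h U W hW z hz
    have c' := h U' W' hW' _ hz'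
    set D := fderiv ℂ φ z with hD
    set D2 := fderiv ℂ (fderiv ℂ φ) z with hD2
    have hJ : ∀ a, jc φ z *ᵥ a = D a := jc_mulVec hφ.differentiableAt
    have hd : ∀ a, HasFDerivAt (fun y => jc φ y *ᵥ a) ((D2.flip a).restrictScalars ℝ) z := by
      intro a
      have h1 : HasFDerivAt (fun y => fderiv ℂ φ y a) (D2.flip a) z := by
        simpa using hφ.fderiv.differentiableAt.hasFDerivAt.clm_apply (hasFDerivAt_const a z)
      refine (h1.restrictScalars ℝ).congr_of_eventuallyEq ?_
      filter_upwards [hφ.eventually_analyticAt] with y hy using jc_mulVec hy.differentiableAt a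
    have hw : ∀ a b, hf (W z) a b = hf (W' (φ z)) (D a) (D b) := fun a b => by
      rw [he.self_of_nhds, hf_pb, hJ, hJ]
    have key : ∀ X b, hf (W' (φ z)) (D2 X V + ga W' (φ z) (D X) (D V)) (D b) +
        hf (W' (φ z)) (D V) (D2 X b + ga W' (φ z) (D X) (D b)) =
        hf (W' (φ z)) (D (ga W z X V)) (D b) + hf (W' (φ z)) (D V) (D (ga W z X b)) := by
      intro X b
      have h1 := c'.hfd (hφ.differentiableAt.hasFDerivAt.restrictScalars ℝ) (hd V) (hd b) X
      have h2 := Cur.hfd (φ := id) c (hasFDerivAt_id z) (hasFDerivAt_const V z)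
        (hasFDerivAt_const b z) X
      have h3 : (fun y => hf (W (id y)) V b) =ᶠ[𝓝 z]
          fun y => hf (W' (φ y)) (jc φ y *ᵥ V) (jc φ y *ᵥ b) := by
        filter_upwards [he] with y hy
        rw [id, hy, hf_pb]
      rw [h3.fderiv_eq, h1] at h2
      simpa [hJ, hw] using h2
    have hl : ∀ {W : Cm n → Mx n} {z : Cm n}, Cur W z → ∀ X a,
        ga W z (I • X) a = I • ga W z X a := fun c X a => by rw [c.sym, c.smul, c.sym]
    have k0 : ∀ b, hf (W' (φ z)) (D2 X V + ga W' (φ z) (D X) (D V)) (D b) =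
        hf (W' (φ z)) (D (ga W z X V)) (D b) := by
      intro b
      have k1 := key X b
      have k2 := key (I • X) b
      simp only [map_smul, hl c, hl c', smul_apply, ← smul_add, hf_smul,
        hf_smul', Complex.conj_I] at k2
      have := Complex.I_mul_I
      linear_combination (1 / 2) * k1 - (I / 2) * k2 + (1 / 2) * (hf (W' (φ z))
        (D2 X V + ga W' (φ z) (D X) (D V)) (D b) - hf (W' (φ z)) (D (ga W z X V)) (D b) -
        hf (W' (φ z)) (D V) (D2 X b + ga W' (φ z) (D X) (D b)) +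
        hf (W' (φ z)) (D V) (D (ga W z X b))) * this
    have hi : Function.Injective (D : Cm n →ₗ[ℂ] Cm n) := by
      refine (injective_iff_map_eq_zero _).2 fun a ha => hf_eq_zero (hW.pos z hz) ?_
      rw [hw, show D a = 0 from ha]
      simp [hf]
    obtain ⟨b, hb⟩ := LinearMap.injective_iff_surjective.1 hi
      (D2 X V + ga W' (φ z) (D X) (D V) + (-1 : ℂ) • D (ga W z X V))
    have h0 := hf_eq_zero (hW'.pos _ hz') (a := D b) (by
      have hb' : D b = _ := hb
      conv_lhs => enter [2]; rw [hb']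
      rw [hf_add, hf_smul, k0]
      ring)
    have hb' : D b = _ := hb
    rw [(hd V).fderiv, hJ, hJ, hJ]
    rw [h0, neg_one_smul, ← sub_eq_add_neg, eq_comm, sub_eq_zero] at hb'
    exact hb'
  · exact (((h U W hW z hz).sm v v).of_le (by simp)).comp (z, v)
      (f := fun q : Cm n × Cm n => (q.1, q.2, q.2)) (by fun_prop)

end Vale.Agent.P253W.Y.G
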