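import Vale.Agent.P253W.Y.G.Defs
import Vale.Agent.P210.R2.H204.SviA

/-!
# P253W, block Y: parallel transport along a geodesic
-/

open scoped ContDiff Topology Matrix
open Set Metric Filter Vale.Agent.P253Z
open Vale.Agent.P272.K (Cm)

noncomputable section

namespace Vale.Agent.P253W.Y.G

variable {n : ℕ}

namespace Parr

theorem ode (A : ℝ → Mx n) (hA : ∀ i j, ContinuousOn (fun t => A t i j) (Icc 0 1)) :
    ∃ Q : ℝ → Mx n, Q 0 = 1 ∧ ∀ t ∈ Icc (0 : ℝ) 1, ∀ i j,
      HasDerivWithinAt (fun s => Q s i j) ((A t * Q t) i j) (Icc 0 1) t := by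
  choose q q0 hq using fun j : Fin n => P210.H204.exists_linODE zero_le_one
    (fun t => LinearMap.toContinuousLinearMap ((A t).mulVecLin.restrictScalars ℝ))
    (continuousOn_clm_apply.2 fun y => continuousOn_pi.2 fun i =>
      continuousOn_finsetSum (f := fun k t => A t i k * y k) Finset.univ fun k _ =>
        (hA i k).mul continuousOn_const) (Pi.single j 1)
  exact ⟨fun s => Matrix.of fun i j => q j s i, by
    ext i j
    simp [q0, Matrix.one_apply, Pi.single_apply],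
    fun t ht i j => hasDerivWithinAt_pi.1 (hq j t ht) i⟩

theorem hd {V : ℝ → Cm n} {V' : Cm n} {Q : ℝ → Mx n} {Q' : Mx n} {S : Set ℝ} {t : ℝ}
    (hV : HasDerivWithinAt V V' S t) (hQ : ∀ i j, HasDerivWithinAt (fun s => Q s i j) (Q' i j) S t) :
    HasDerivWithinAt (fun s => V s ᵥ* Q s) (V' ᵥ* Q t + V t ᵥ* Q') S t :=
  hasDerivWithinAt_pi.2 fun j => by
    simp only [Matrix.vecMul, dotProduct, Pi.add_apply, ← Finset.sum_add_distrib]
    exact .fun_sum fun i _ => (hasDerivWithinAt_pi.1 hV i).mul (hQ i j)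

theorem const {E : Type} [NormedAddCommGroup E] [NormedSpace ℝ E] {f : ℝ → E}
    (h : ∀ t ∈ Icc (0 : ℝ) 1, HasDerivWithinAt f 0 (Icc 0 1) t) : ∀ t ∈ Icc (0 : ℝ) 1, f t = f 0 :=
  fun t ht => by
    simpa [sub_eq_zero] using norm_image_sub_le_of_norm_deriv_le_segment' h
      (fun _ _ => norm_zero.le) t ht

end Parr

open Parr

theorem par (n : ℕ) (h : CUR n) : PAR n := fun ε U W c T hK hg ε0 ε1 hb => by
  have hA (i j) : ContinuousOn (fun t => Gm W (c t) (T t) i j) (Icc 0 1) := fun t ht => by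
    simpa [ga, Function.comp_def] using continuousWithinAt_pi.1
      (((h U W hK _ (hg t ht).1).sm (T t) (Pi.single i 1)).continuousAt.comp_continuousWithinAt
        (f := fun s => (c s, T s, Pi.single i 1)) ((hg t ht).2.1.continuousWithinAt.prodMk
          ((hg t ht).2.2.continuousWithinAt.prodMk continuousWithinAt_const))) j
  obtain ⟨Q, Q0, hQ⟩ := ode _ hA
  obtain ⟨P, P0, hP⟩ := ode (fun t => -(Gm W (c t) (T t))ᵀ) fun i j => (hA j i).neg
  have P1 (a : Cm n) : a ᵥ* (P 0)ᵀ = a := by rw [P0, Matrix.transpose_one, Matrix.vecMul_one]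
  have dP (t) (ht : t ∈ Icc (0 : ℝ) 1) (a : Cm n) : HasDerivWithinAt (fun s => a ᵥ* (P s)ᵀ)
      (-ga W (c t) (T t) (a ᵥ* (P t)ᵀ)) (Icc 0 1) t :=
    (hd (Q := fun s => (P s)ᵀ) (Q' := (-(Gm W (c t) (T t))ᵀ * P t)ᵀ)
      (hasDerivWithinAt_const t _ a) fun i j => hP t ht j i).congr_deriv (by simp [ga, Matrix.vecMul_neg])
  have dQ (t) (ht : t ∈ Icc (0 : ℝ) 1) (V : ℝ → Cm n) (V' : Cm n)
      (hV : HasDerivWithinAt V V' (Icc 0 1) t) : HasDerivWithinAt (fun s => V s ᵥ* Q s)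
      ((V' + ga W (c t) (T t) (V t)) ᵥ* Q t) (Icc 0 1) t :=
    (hd hV (hQ t ht)).congr_deriv (by simp [ga, Matrix.add_vecMul])
  have inv (t) (ht : t ∈ Icc (0 : ℝ) 1) : (P t)ᵀ * Q t = 1 := Matrix.ext_iff_vecMul.2 fun a => by
    have := const (fun s hs => (dQ s hs _ _ (dP s hs a)).congr_deriv (by simp)) t ht
    rwa [P1, Q0, Matrix.vecMul_vecMul] at this
  refine ⟨fun t => (P t)ᵀ, Q, by rw [P0, Matrix.transpose_one], inv, dP, dQ, fun t ht a b => ?_,
    fun t ht => ?_, fun t ht a => ?_⟩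
  · have := const (f := fun s => hf (W (c s)) (a ᵥ* (P s)ᵀ) (b ᵥ* (P s)ᵀ)) (fun s hs =>
      (((h U W hK _ (hg s hs).1).hsm _ _).differentiableAt (by simp)
        |>.hasFDerivAt.comp_hasDerivWithinAt (f := fun s => (c s, a ᵥ* (P s)ᵀ, b ᵥ* (P s)ᵀ)) s
        ((hg s hs).2.1.prodMk ((dP s hs a).prodMk (dP s hs b)))).congr_deriv (by
          rw [(h U W hK _ (hg s hs).1).cpt]
          simp [hf])) t ht
    rwa [P1, P1] at this
  · have := const (fun s hs => (dQ s hs _ _ (hg s hs).2.2).congr_deriv (by simp [ga])) t ht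
    rw [Q0, Matrix.vecMul_one] at this
    rw [← this, Matrix.vecMul_vecMul, mul_eq_one_comm.1 (inv t ht), Matrix.vecMul_one]
  · have h1 (s) (hs : s ∈ Icc (0 : ℝ) 1) : ‖a ᵥ* (P s)ᵀ‖ ≤ 2 * ‖a‖ := by
      have := norm_le_gronwallBound_of_norm_deriv_right_le (ε := 0)
        (fun s hs => (dP s hs a).continuousWithinAt) (fun s hs => (dP s (Ico_subset_Icc_self hs)
          a).mono_of_mem_nhdsWithin (Icc_mem_nhdsGE_of_mem hs)) (congrArg norm (P1 a)).le
        (fun s hs => by simpa using hb s (Ico_subset_Icc_self hs) _) s hs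
      rw [gronwallBound_ε0, sub_zero, mul_comm] at this
      refine this.trans (mul_le_mul_of_nonneg_right ((Real.exp_le_exp.2
        (show ε * s ≤ 1 / 2 by nlinarith [hs.1, hs.2])).trans ?_) (norm_nonneg a))
      exact (Real.exp_bound_div_one_sub_of_interval (by norm_num) (by norm_num)).trans_eq
        (by norm_num)
    have := norm_image_sub_le_of_norm_deriv_le_segment' (C := 2 * ε * ‖a‖) (fun s hs => dP s hs a)
      (fun s hs => by
        rw [norm_neg]
        nlinarith [hb s (Ico_subset_Icc_self hs) (a ᵥ* (P s)ᵀ), h1 s (Ico_subset_Icc_self hs)]) t ht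
    rw [P1, sub_zero] at this
    exact this.trans (mul_le_of_le_one_right (by positivity) ht.2)

end Vale.Agent.P253W.Y.G
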