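import Vale.Agent.P253W.Y.G.Defs

/-!
# P253W, block Y: the Ricci form along a geodesic
-/

open scoped ContDiff Topology Matrix ComplexOrder
open Set Metric Filter
open Vale.Agent.P272.K (Cm)

noncomputable section

namespace Vale.Agent.P253W.Y.G

variable {n : ℕ}

theorem DX_smul (c : ℂ) (X : Cm n) (W : Cm n → Mx n) (z : Cm n) :
    DX (c • X) W z = c • DX X W z := by
  simp [DX, Finset.smul_sum, smul_smul]

theorem ric (n : ℕ) : RIC n := by
  intro ε m W c T P Q V hK hg hP h0 hR t ht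
  have z : (0 : ℝ) ∈ Icc (0 : ℝ) 1 := by simp
  have hD : 0 < qf (W (c 0)) (T 0) := by
    have := (hK.pos _ (hg 0 z).1).re_dotProduct_pos (x := star (T 0)) (by simpa using h0)
    simpa [qf] using this
  have hd := Real.sqrt_pos.2 hD
  have e := Real.sq_sqrt hD.le
  generalize √(qf (W (c 0)) (T 0)) = d at hR hd e
  have m1 : MapsTo (fun s => s / d) (Icc 0 d) (Icc 0 1) := fun s hs =>
    ⟨div_nonneg hs.1 hd.le, (div_le_one hd).2 hs.2⟩
  have l (s : ℝ) : HasDerivWithinAt (fun s => s / d) d⁻¹ (Icc 0 d) s := by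
    simpa using ((hasDerivAt_id s).div_const d).hasDerivWithinAt
  have hT : ContinuousOn T (Icc 0 1) := fun s hs => (hg s hs).2.2.continuousWithinAt
  have := hR d (fun s => c (s / d)) (fun s => d⁻¹ • T (s / d)) (fun s => V ᵥ* P (s / d))
    (fun s => d⁻¹ • -ga W (c (s / d)) (T (s / d)) (V ᵥ* P (s / d))) hd.le le_rfl (by simp)
    (by simp [hP.zero]) ((hT.comp (by fun_prop) m1).const_smul d⁻¹) (fun s hs => ?_) (t * d)
    ⟨mul_nonneg ht.1 hd.le, mul_le_of_le_one_left hd.le ht.2⟩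
  · simpa [hd.ne'] using this
  have hs' := m1 hs
  have dV := (hP.dP _ hs' V).scomp s (l s) m1
  refine ⟨(hg _ hs').1, (hg _ hs').2.1.scomp s (l s) m1, dV, ?_, ?_⟩
  · have h1 := congrArg Complex.re (hP.iso _ hs' (T 0) (T 0))
    rw [hP.vel _ hs', ← gr_apply, ← gr_apply, gr_self (W (c 0)), ← e] at h1
    rw [← gr_self]
    simp only [map_smul, smul_apply, smul_eq_mul, h1]
    exact le_of_eq (by field_simp)
  · have h1 := (Matrix.isUnit_iff_isUnit_det _).1 (hK.pos _ (hg _ hs').1).isUnit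
    rw [← Complex.coe_smul, ← Complex.coe_smul, DX_smul, Matrix.smul_vecMul, Matrix.neg_vecMul, ga,
      Gm, Matrix.vecMul_vecMul, Matrix.nonsing_inv_mul_cancel_right _ _ h1, Matrix.vecMul_smul,
      smul_neg, neg_add_cancel]

end Vale.Agent.P253W.Y.G
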