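import Vale.Agent.P253W.Y.G.Cb
import Vale.Agent.P253W.Y.G.Cp
import Vale.Agent.P253W.Y.G.Cur
import Vale.Agent.P253W.Y.G.Db
import Vale.Agent.P253W.Y.G.Fl
import Vale.Agent.P253W.Y.G.Gam
import Vale.Agent.P253W.Y.G.Gf
import Vale.Agent.P253W.Y.G.Hes
import Vale.Agent.P253W.Y.G.Jab
import Vale.Agent.P253W.Y.G.Jf
import Vale.Agent.P253W.Y.G.Jt
import Vale.Agent.P253W.Y.G.Lg
import Vale.Agent.P253W.Y.G.Lip
import Vale.Agent.P253W.Y.G.Nat
import Vale.Agent.P253W.Y.G.Near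
import Vale.Agent.P253W.Y.G.Par
import Vale.Agent.P253W.Y.G.Ric

/-!
# P253W, block Y: `GEO` and `NAT`
-/

namespace Vale.Agent.P253W.Y

open G

theorem geo (n : ℕ) : GEO n :=
  geo_of (gam n (cur n) (db n (cur n)) (cb n (cur n)) cp) (lip n (cur n)) (fl n (cur n) gf)
    (jt n (cb n (cur n)) (jac n (cur n)) (par n (cur n)) (ric n)) (near n jab) (lg n)
    (jf n jab (hes n (cur n)) (cur n))

theorem nat (n : ℕ) : NAT n := G.nat n (cur n)

end Vale.Agent.P253W.Y
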