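import Vale.Agent.P253W.Y.G.Defs

/-!
# P253W, block Y: `GEO` from its steps
-/

open scoped ContDiff Topology Matrix ComplexOrder
open Set Metric Filter
open Vale.Agent.P272.K (Cm)

noncomputable section

namespace Vale.Agent.P253W.Y.G

variable {n : ℕ}

theorem qf_nonneg {U : Set (Cm n)} {W : Cm n → Mx n} (h : Ka U W) {y : Cm n} (hy : y ∈ U)
    (v : Cm n) : 0 ≤ qf (W y) v := by
  have := (h.pos y hy).posSemidef.re_dotProduct_nonneg (star v)
  simpa [qf] using this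

theorem sk_mono {C C' s : ℝ} {W : Cm n → Mx n} (h : SK C s W) (hC : C ≤ C') : SK C' s W :=
  { h with
    lo := fun y hy v => (h.lo y hy v).trans
      (mul_le_mul_of_nonneg_right hC (qf_nonneg h.toKa hy v))
    up := fun y hy v => (h.up y hy v).trans (mul_le_mul_of_nonneg_right hC (by positivity)) }

theorem Fl.geo {r : ℝ} {W : Cm n → Mx n} {c T : ℝ × Cm n × Cm n → Cm n} (h : Fl r W c T)
    {w : Cm n × Cm n} (hw : w ∈ Om n r) : IsGeo W (closedBall w.1 (2 * ‖w.2‖))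
      (fun t => c (1, w.1, (t : ℂ) • w.2)) fun t => T (t, w) := by
  intro t ht
  have e := h.hom w hw t ht
  refine ⟨?_, ?_, ?_⟩
  · rw [mem_closedBall_iff_norm]
    simpa only [e] using (h.bd w hw t ht).1
  · exact (h.ode w hw t ht).1.hasDerivWithinAt.congr (fun s hs => h.hom w hw s hs) e
  · simp only [e]
    exact (h.ode w hw t ht).2.hasDerivWithinAt

theorem geo_of (h1 : GAM n) (h2 : LIP n) (h3 : FL n) (h4 : JT n) (h5 : NEAR n) (h6 : LG n)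
    (h7 : JF n) : GEO n := by
  intro C₀
  have hC : 1 ≤ max C₀ 1 := le_max_right _ _
  obtain ⟨G, hG, hGb⟩ := h1 _ hC
  obtain ⟨C1, hl⟩ := h2 _ G hC hG
  obtain ⟨C2, hn⟩ := h5 _ G hC hG
  obtain ⟨C, c1, c2, c3, c4, c5⟩ : ∃ C : ℝ, C1 ≤ C ∧ C2 ≤ C ∧ 10000 ≤ C ∧ G ≤ C ∧ max C₀ 1 ≤ C :=
    ⟨|C1| + |C2| + 10000 + G + max C₀ 1, by
      refine ⟨?_, ?_, ?_, ?_, ?_⟩ <;>
        linarith [le_abs_self C1, le_abs_self C2, abs_nonneg C1, abs_nonneg C2]⟩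
  have hr : 0 < 1 / (64 * C) := by positivity
  have e : C * (1 / (64 * C)) = 1 / 64 := by field_simp
  generalize 1 / (64 * C) = r at hr e
  have r1 : 64 * G * r ≤ 1 := by nlinarith
  have r2 : 40 * max C₀ 1 * r ≤ 1 := by nlinarith
  refine ⟨r, C, hr, by linarith, fun s W hW0 => ?_⟩
  have hW := sk_mono hW0 (le_max_left C₀ 1)
  obtain ⟨c, T, hF⟩ := h3 G r W hW.toKa hG (hGb s W hW) hr r1
  have hJ := h4 _ G r s W c T hC hW hG (hGb s W hW) r1 hF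
  have hs : ContDiff ℝ ∞ fun w : Cm n × Cm n => c (1, w) :=
    hF.c_sm.comp (contDiff_const.prodMk contDiff_id)
  have hN : ∀ w ∈ Om n r, ∀ u, ‖fderiv ℝ (fun w => c (1, w)) w (0, u) - u‖ ≤ C * ‖w.2‖ * ‖u‖ := by
    intro w hw u
    obtain ⟨P, Q, L, hd⟩ := hJ w hw
    refine (hn r s W c T w P Q L hW hF r2 hw hd u).trans ?_
    gcongr
  obtain ⟨lg, hL⟩ := h6 r _ hr hs hF.zero fun w hw u => (hN w hw u).trans (by
    have h8 := mem_ball_zero_iff.1 hw.2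
    have : C * ‖w.2‖ ≤ 1 / 4 := by nlinarith
    gcongr)
  refine ⟨_, lg, fun y hy y' hy' v => (hl s W hW (hGb s W hW) y hy y' hy' v).trans ?_, hs,
    fun p hp v hv => ⟨_, hF.T0 (p, v), hF.geo (w := (p, v)) ⟨hp, hv⟩⟩, hF.zero,
    fun p hp v hv => hN (p, v) ⟨hp, hv⟩, ⟨by nlinarith, hF.small.2⟩, hL.sm, hL.ex_lg, hL.lg_ex,
    fun p hp q hq => ?_⟩
  · have := qf_nonneg hW.toKa (ball_subset_ball (by norm_num) hy) v
    gcongr
  · obtain ⟨P, hP, h⟩ := h7 _ G r s W c T lg hC hW hF r2 hL hJ p hp q hq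
    refine ⟨P, hP, fun V m hm hR a x => ?_⟩
    obtain ⟨a1, a2, a3⟩ := h V m hm hR a x
    have hp1 : p ∈ ball (0 : Cm n) 1 := ball_subset_ball (by linarith [hF.small.2]) hp
    have b1 := qf_nonneg hW.toKa hp1 (x ᵥ* P - a • V)
    have b2 : 0 ≤ dq W lg (p, q) := qf_nonneg hW.toKa hp1 _
    refine ⟨a1, a2.trans ?_, a3.trans ?_⟩ <;> gcongr

end Vale.Agent.P253W.Y.G
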