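import Vale.Agent.P253W.Y.G.Defs
import Vale.Agent.P253W.V.LfcA

/-!
# P253W, block Y: bounds for the curvature
-/

open scoped ComplexConjugate ComplexOrder Matrix
open Set Metric
open Vale.Agent.P272.K (Cm)
open Complex (I)
open Vale.Agent.P253W.V.Lfc

noncomputable section

namespace Vale.Agent.P253W.Y.G

namespace Cb

variable {n : ℕ} {W : Cm n → Mx n} {z : Cm n}

theorem hf_sf (A : Mx n) (a b : Cm n) : hf A a b = sf A (star a) (star b) := by
  rw [sf, star_star, hf]

theorem qf_sf (A : Mx n) (a : Cm n) : qf A a = (sf A (star a) (star a)).re := by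
  rw [← hf_sf]; rfl

theorem hf_sub (A : Mx n) (a a' b : Cm n) : hf A (a - a') b = hf A a b - hf A a' b := by
  simp [hf]

theorem qf_nn {A : Mx n} (h : A.PosSemidef) (a : Cm n) : 0 ≤ qf A a :=
  qf_sf A a ▸ (sf_re h _).2

theorem hf_cs {A : Mx n} (h : A.PosSemidef) (a b : Cm n) : ‖hf A a b‖ ≤ √(qf A a) * √(qf A b) := by
  rw [← Real.sqrt_mul (qf_nn h a), mul_comm, hf_sf, qf_sf, qf_sf]
  exact Real.le_sqrt_of_sq_le (cs h _ _)

theorem Kxy_exp (X Y : Cm n) (c : ℂ) : Kxx W z (X + c • Y) =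
    Kxx W z X + conj c • Kxy W z X Y + c • Kxy W z Y X + (c * conj c) • Kxx W z Y := by
  simp only [Kxx, Kxy, Finset.smul_sum, ← Finset.sum_add_distrib, smul_smul, ← add_smul,
    Pi.add_apply, Pi.smul_apply, smul_eq_mul, map_add, map_mul]
  exact Finset.sum_congr rfl fun l _ => Finset.sum_congr rfl fun k _ => by congr 1; ring

variable (W z) in
/-- the curvature tensor -/
def R (X Y a b : Cm n) : ℂ := hf (Kxy W z X Y) a b

theorem bk_eq (X a : Cm n) : bk W z X a = (R W z X X a a).re := rfl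

variable (h : Cur W z)
include h

theorem s1 (X Y a b : Cm n) : R W z X Y a b = R W z a Y X b := by
  rw [R, R, ← h.kv, ← h.kv, h.ksym]

theorem s2 (X Y a b : Cm n) : conj (R W z X Y a b) = R W z Y X b a := by
  rw [R, R, ← h.kconj, hf_sf, hf_sf, sf_conj, Complex.conj_conj]

theorem s3 (X Y a b : Cm n) : R W z X Y a b = R W z X b a Y := by
  rw [← s2 h Y, s1 h Y, s2 h]

theorem bk_comm (X a : Cm n) : bk W z X a = bk W z a X := by
  rw [bk_eq, bk_eq, s1 h, s3 h]

theorem gr_Lc (T a b : Cm n) :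
    gr (W z) (Lc W z T a) b = (R W z T a T b).re - (R W z T T a b).re := by
  rw [gr_apply, Lc, hf_sub, h.kv, h.kv, Complex.sub_re, R, R]

theorem mixed (hK : ∀ X, (Kxx W z X).PosSemidef) (X Y a b : Cm n) : ‖R W z X Y a b‖ ≤
    2 * (√(bk W z X a) * √(bk W z Y b) + √(bk W z X b) * √(bk W z Y a)) := by
  simp only [R, bk, hf_sf, qf_sf]
  exact mix (hK X) (hK Y) (fun c => by rw [h.kconj, ← Kxy_exp]; exact hK _) _ _

end Cb

open Cb in
/-- **CB** -/
theorem cb (n : ℕ) (h : CUR n) : CB n := by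
  intro C s W hC hS z hz T
  have c := h _ W hS.toKa z hz
  have hs := hS.s_pos
  have hW := hS.pos z hz
  have hK : ∀ X, (Kxx W z X).PosSemidef := fun X => (hS.bk z hz X).1
  have q0 : ∀ a, 0 ≤ qf (W z) a := qf_nn hW.posSemidef
  have b1 : ∀ X a, bk W z X a ≤ qf (W z) X * qf (rho W z) a := fun X a => by
    have := qf_nn (hS.bk z hz X).2 a
    rw [qf_sf, sf_sub, sf_smul, Complex.sub_re, Complex.re_ofReal_mul, ← qf_sf, ← qf_sf] at this
    exact sub_nonneg.1 this
  have b2 : ∀ X a, bk W z X a ≤ qf (W z) X * qf (W z) a / s ^ 2 := fun X a => by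
    refine (b1 X a).trans ?_
    rw [mul_div_assoc]
    exact mul_le_mul_of_nonneg_left ((le_div_iff₀' (by positivity)).2 (hS.ric z hz a)) (q0 X)
  have r1 : ∀ X a, √(bk W z X a) ≤ √(qf (W z) X) * √(qf (rho W z) a) := fun X a => by
    rw [← Real.sqrt_mul (q0 X)]
    exact Real.sqrt_le_sqrt (b1 X a)
  have r2 : ∀ X a, √(bk W z X a) ≤ √(qf (W z) X) * √(qf (W z) a) / s := fun X a => by
    rw [← Real.sqrt_mul (q0 X), ← Real.sqrt_sq hs.le, ← Real.sqrt_div (mul_nonneg (q0 X) (q0 a))]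
    exact Real.sqrt_le_sqrt (b2 X a)
  have r3 : ∀ a b, ‖R W z T T a b‖ ≤ √(bk W z T a) * √(bk W z T b) := fun a b => hf_cs (hK T) a b
  have tt := Real.mul_self_sqrt (q0 T)
  refine ⟨fun a b => ?_, sub_self _, fun a b => ?_, fun a => ?_, fun a => ⟨?_, ?_⟩⟩
  · rw [gr_comm hW.1 a, gr_Lc c, gr_Lc c, s3 c T a, ← s2 c T T a b, Complex.conj_re]
  · have m1 : √(bk W z T a) * √(bk W z T b) ≤
        qf (W z) T / s * √(qf (rho W z) a) * √(qf (W z) b) :=
      (mul_le_mul (r1 T a) (r2 T b) (Real.sqrt_nonneg _) (by positivity)).trans (le_of_eq (by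
        conv_rhs => rw [← tt]
        ring))
    have m2 : √(bk W z T T) * √(bk W z b a) ≤
        qf (W z) T / s * √(qf (rho W z) a) * √(qf (W z) b) :=
      (mul_le_mul (r2 T T) (r1 b a) (Real.sqrt_nonneg _) (by positivity)).trans (le_of_eq (by
        rw [tt]
        ring))
    have m3 := mixed c hK T a T b
    rw [bk_comm c a b, bk_comm c a T, mul_comm √(bk W z T b)] at m3
    have m4 := abs_le.1 ((Complex.abs_re_le_norm _).trans m3)
    have m5 := abs_le.1 ((Complex.abs_re_le_norm _).trans (r3 a b))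
    rw [gr_Lc c, mul_div_assoc, mul_assoc, mul_assoc, ← mul_assoc (_ / s), abs_le]
    constructor <;> linarith [m4.1, m4.2, m5.1, m5.2]
  · have e1 : R W z T (I • a) T (I • a) = -R W z T a T a := by
      rw [R, hf_smul', ← R, s3 c, R, hf_smul', ← R, ← mul_assoc, Complex.conj_I]
      simp
    have e2 : R W z T T (I • a) (I • a) = R W z T T a a := by
      rw [R, hf_smul, hf_smul', ← R, ← mul_assoc, Complex.conj_I]
      simp
    have b0 : 0 ≤ bk W z T a := qf_nn (hK T) a
    have := b1 T a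
    rw [gr_Lc c, gr_Lc c, e1, e2, ← bk_eq, Complex.neg_re, abs_le]
    constructor <;> linarith
  · set v := Kv W z T T a
    have m1 : √(qf (W z) v) * √(qf (W z) v) ≤ qf (W z) T / s ^ 2 * √(qf (W z) a) * √(qf (W z) v) := by
      rw [Real.mul_self_sqrt (q0 v)]
      calc qf (W z) v = (R W z T T a v).re := congrArg Complex.re (c.kv T T a v)
        _ ≤ _ := (Complex.re_le_norm _).trans (r3 a v)
        _ ≤ _ := mul_le_mul (r2 T a) (r2 T v) (Real.sqrt_nonneg _) (by positivity)
        _ = _ := by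
          conv_rhs => rw [← tt]
          ring
    have m2 : √(qf (W z) v) ≤ qf (W z) T / s ^ 2 * √(qf (W z) a) := by
      rcases (Real.sqrt_nonneg (qf (W z) v)).eq_or_lt with h0 | h0
      · rw [← h0]
        have := q0 T
        positivity
      · exact le_of_mul_le_mul_right m1 h0
    have m3 := pow_le_pow_left₀ (Real.sqrt_nonneg _) m2 2
    rw [mul_pow, Real.sq_sqrt (q0 v), Real.sq_sqrt (q0 a)] at m3
    have m4 : qf (W z) T / s ^ 2 ≤ C * ‖T‖ ^ 2 :=
      (div_le_iff₀ (by positivity)).2 ((hS.up z hz T).trans (le_of_eq (by ring)))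
    refine le_of_sq_le_sq (le_of_mul_le_mul_left ?_ (by positivity : 0 < s ^ 2)) (by positivity)
    calc s ^ 2 * ‖v‖ ^ 2 ≤ C * qf (W z) v := hS.lo z hz v
      _ ≤ C * ((C * ‖T‖ ^ 2) ^ 2 * (C * (s ^ 2 * ‖a‖ ^ 2))) := by
        have := q0 T
        have := q0 a
        refine mul_le_mul_of_nonneg_left (m3.trans ?_) (by linarith)
        gcongr
        exact hS.up z hz a
      _ = _ := by ring
  · refine (b2 T a).trans ((div_le_iff₀ (by positivity)).2 ?_)
    exact (mul_le_mul (hS.up z hz T) (hS.up z hz a) (q0 a) (by positivity)).trans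
      (le_of_eq (by ring))

end Vale.Agent.P253W.Y.G
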