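import Vale.Agent.P253W.Y.Geo

/-!
# P253W, block Y: the steps of `GEO` and `NAT`. Statements.
-/

open scoped ContDiff ENNReal Topology ComplexConjugate ComplexOrder Matrix
open MeasureTheory Set Metric Filter Vale.Agent.P253Z
open Vale.Agent.P272.K (Cm dz)
open Vale.Agent.P272.K.C2 (RM)
open Vale.Agent.P253.R2.H451 (levi2)
open Complex (I)

noncomputable section

namespace Vale.Agent.P253W.Y.G

variable {n : ℕ}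

/-- `Γ(X, V)` -/
def ga (W : Cm n → Mx n) (z X V : Cm n) : Cm n := V ᵥ* Gm W z X

/-- `R(X, Ȳ, ·, ·)` -/
def Kxy (W : Cm n → Mx n) (z X Y : Cm n) : Mx n := ∑ l, ∑ k, (X k * conj (Y l)) • RM k l W z

/-- `R(X, Ȳ) a` -/
def Kv (W : Cm n → Mx n) (z X Y a : Cm n) : Cm n := a ᵥ* (Kxy W z X Y * (W z)⁻¹)

/-- the Jacobi operator -/
def Lc (W : Cm n → Mx n) (z T a : Cm n) : Cm n := Kv W z T a T - Kv W z T T a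

/-- the derivative of `Γ(X, V)` in the direction `Y` -/
def Dg (W : Cm n → Mx n) (z Y X V : Cm n) : Cm n := fderiv ℝ (fun y => ga W y X V) z Y

theorem hf_add (A : Mx n) (a a' b : Cm n) : hf A (a + a') b = hf A a b + hf A a' b := by
  simp [hf]

theorem hf_add' (A : Mx n) (a b b' : Cm n) : hf A a (b + b') = hf A a b + hf A a b' := by
  simp [hf, Matrix.mulVec_add]

theorem hf_smul (A : Mx n) (c : ℂ) (a b : Cm n) : hf A (c • a) b = c * hf A a b := by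
  simp [hf]

theorem hf_smul' (A : Mx n) (c : ℂ) (a b : Cm n) : hf A a (c • b) = conj c * hf A a b := by
  simp [hf, Matrix.mulVec_smul]

theorem hf_conj {A : Mx n} (h : A.IsHermitian) (a b : Cm n) : conj (hf A a b) = hf A b a := by
  simp only [hf, dotProduct, Matrix.mulVec, map_sum, map_mul, Finset.mul_sum, Pi.star_apply,
    RCLike.star_def, Complex.conj_conj]
  rw [Finset.sum_comm]
  refine Finset.sum_congr rfl fun i _ => Finset.sum_congr rfl fun j _ => ?_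
  have := h.apply i j
  rw [RCLike.star_def] at this
  rw [this]; ring

/-- the real inner product of a Hermitian matrix -/
def gr (A : Mx n) : Cm n →L[ℝ] Cm n →L[ℝ] ℝ :=
  LinearMap.toContinuousLinearMap (LinearMap.toContinuousLinearMap.toLinearMap ∘ₗ
    LinearMap.mk₂ ℝ (fun a b => (hf A a b).re) (fun a a' b => by simp [hf_add])
      (fun c a b => by simp [← Complex.coe_smul, hf_smul]) (fun a b b' => by simp [hf_add'])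
      (fun c a b => by simp [← Complex.coe_smul, hf_smul']))

theorem gr_apply (A : Mx n) (a b : Cm n) : gr A a b = (hf A a b).re := rfl

theorem gr_self (A : Mx n) (a : Cm n) : gr A a a = qf A a := rfl

theorem gr_comm {A : Mx n} (h : A.IsHermitian) (a b : Cm n) : gr A a b = gr A b a := by
  rw [gr_apply, gr_apply, ← hf_conj h, Complex.conj_re]

/-- the pointwise identities for the connection and the curvature -/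
structure Cur (W : Cm n → Mx n) (z : Cm n) : Prop where
  sym : ∀ X V, ga W z X V = ga W z V X
  add : ∀ X V V', ga W z X (V + V') = ga W z X V + ga W z X V'
  smul : ∀ (c : ℂ) X V, ga W z X (c • V) = c • ga W z X V
  sm : ∀ X V, ContDiffAt ℝ ∞ (fun q : Cm n × Cm n × Cm n => ga W q.1 q.2.1 q.2.2) (z, X, V)
  hsm : ∀ a b, ContDiffAt ℝ ∞ (fun q : Cm n × Cm n × Cm n => hf (W q.1) q.2.1 q.2.2) (z, a, b)
  fd : ∀ X V Y X' V', fderiv ℝ (fun q : Cm n × Cm n × Cm n => ga W q.1 q.2.1 q.2.2) (z, X, V)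
    (Y, X', V') = Dg W z Y X V + ga W z X' V + ga W z X V'
  cpt : ∀ a b Y a' b', fderiv ℝ (fun q : Cm n × Cm n × Cm n => hf (W q.1) q.2.1 q.2.2) (z, a, b)
    (Y, a', b') = hf (W z) (a' + ga W z Y a) b + hf (W z) a (b' + ga W z Y b)
  cur : ∀ X Y V, Dg W z Y X V - Dg W z X Y V + ga W z Y (ga W z X V) - ga W z X (ga W z Y V) =
    Kv W z Y X V - Kv W z X Y V
  kv : ∀ X Y a b, hf (W z) (Kv W z X Y a) b = hf (Kxy W z X Y) a b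
  ksym : ∀ X Y a, Kv W z X Y a = Kv W z a Y X
  kconj : ∀ X Y, (Kxy W z X Y)ᴴ = Kxy W z Y X

/-- **CUR** -/
def CUR (n : ℕ) : Prop := ∀ (U : Set (Cm n)) (W : Cm n → Mx n), Ka U W → ∀ z ∈ U, Cur W z

/-- **DB**: the `∂̄` derivative of the connection and the Levi form of the metric -/
def DB (n : ℕ) : Prop := ∀ (U : Set (Cm n)) (W : Cm n → Mx n), Ka U W → ∀ z ∈ U, ∀ X a : Cm n,
  Dg W z X X a + I • Dg W z (I • X) X a = -((2 : ℂ) • Kv W z X X a) ∧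
  levi2 (fun y => qf (W y) a) z X = 4 * (qf (W z) (ga W z X a) - bk W z X a)

/-- **CB**: bounds for the curvature -/
def CB (n : ℕ) : Prop := ∀ (C s : ℝ) (W : Cm n → Mx n), 1 ≤ C → SK C s W →
  ∀ z ∈ ball (0 : Cm n) 1, ∀ T : Cm n,
    (∀ a b, gr (W z) (Lc W z T a) b = gr (W z) a (Lc W z T b)) ∧ Lc W z T T = 0 ∧
    (∀ a b, |gr (W z) (Lc W z T a) b| ≤
      5 * qf (W z) T / s * √(qf (rho W z) a) * √(qf (W z) b)) ∧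
    (∀ a, |gr (W z) (Lc W z T a) a + gr (W z) (Lc W z T (I • a)) (I • a)| ≤
      2 * qf (W z) T * qf (rho W z) a) ∧
    ∀ a, ‖Kv W z T T a‖ ≤ C ^ 2 * ‖T‖ ^ 2 * ‖a‖ ∧ bk W z T a ≤ C ^ 2 * s ^ 2 * ‖T‖ ^ 2 * ‖a‖ ^ 2

/-- **CP**: a mean value inequality with a `∂̄` error -/
def CP : Prop := ∀ (g : ℂ → ℂ) (ρ A : ℝ), 0 < ρ → (∀ τ ∈ closedBall (0 : ℂ) ρ, ContDiffAt ℝ 1 g τ ∧
    ‖fderiv ℝ g τ 1 + I * fderiv ℝ g τ I‖ ≤ A) →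
  ‖g 0‖ ≤ (Real.pi * ρ ^ 2)⁻¹ * (∫ τ in ball (0 : ℂ) ρ, ‖g τ‖) + A * ρ

/-- a bound for the connection -/
def Gb (G : ℝ) (W : Cm n → Mx n) : Prop :=
  ∀ z ∈ ball (0 : Cm n) (1 / 2), ∀ X a, ‖ga W z X a‖ ≤ G * ‖X‖ * ‖a‖

/-- **GAM** -/
def GAM (n : ℕ) : Prop := ∀ C : ℝ, 1 ≤ C → ∃ G : ℝ, 1 ≤ G ∧ ∀ (s : ℝ) (W : Cm n → Mx n),
  SK C s W → Gb G W

/-- **LIP** -/
def LIP (n : ℕ) : Prop := ∀ C G : ℝ, 1 ≤ C → 1 ≤ G → ∃ C' : ℝ, ∀ (s : ℝ) (W : Cm n → Mx n),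
  SK C s W → Gb G W → ∀ y ∈ ball (0 : Cm n) (1 / 2), ∀ y' ∈ ball (0 : Cm n) (1 / 2), ∀ v,
    |qf (W y) v - qf (W y') v| ≤ C' * ‖y - y'‖ * qf (W y) v

/-- **GF**: the flow of a vector field with compact support -/
def GF : Prop := ∀ (E : Type) [NormedAddCommGroup E] [NormedSpace ℝ E] [FiniteDimensional ℝ E]
  (f : E → E), ContDiff ℝ ∞ f → HasCompactSupport f → ∃ Φ : ℝ × E → E, ContDiff ℝ ∞ Φ ∧
    (∀ p, Φ (0, p) = p) ∧ ∀ t p, HasDerivAt (fun s => Φ (s, p)) (f (Φ (t, p))) t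

/-- the initial data -/
def Om (n : ℕ) (r : ℝ) : Set (Cm n × Cm n) := ball 0 r ×ˢ ball 0 (8 * r)

/-- the geodesic flow -/
structure Fl (r : ℝ) (W : Cm n → Mx n) (c T : ℝ × Cm n × Cm n → Cm n) : Prop where
  small : 0 < r ∧ 20 * r ≤ 1 / 2
  c_sm : ContDiff ℝ ∞ c
  T_sm : ContDiff ℝ ∞ T
  c0 : ∀ w, c (0, w) = w.1
  T0 : ∀ w, T (0, w) = w.2
  zero : ∀ p, c (1, p, 0) = p
  bd : ∀ w ∈ Om n r, ∀ t ∈ Icc (0 : ℝ) 1, ‖c (t, w) - w.1‖ ≤ 2 * ‖w.2‖ ∧ ‖T (t, w)‖ ≤ 2 * ‖w.2‖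
  ode : ∀ w ∈ Om n r, ∀ t ∈ Icc (0 : ℝ) 1, HasDerivAt (fun s => c (s, w)) (T (t, w)) t ∧
    HasDerivAt (fun s => T (s, w)) (-ga W (c (t, w)) (T (t, w)) (T (t, w))) t
  hom : ∀ w ∈ Om n r, ∀ t ∈ Icc (0 : ℝ) 1, c (1, w.1, (t : ℂ) • w.2) = c (t, w)

theorem Fl.mem {r : ℝ} {W : Cm n → Mx n} {c T : ℝ × Cm n × Cm n → Cm n} (h : Fl r W c T)
    {w : Cm n × Cm n} (hw : w ∈ Om n r) {t : ℝ} (ht : t ∈ Icc (0 : ℝ) 1) :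
    c (t, w) ∈ ball (0 : Cm n) (1 / 2) := by
  have h1 := (h.bd w hw t ht).1
  have h2 := mem_ball_zero_iff.1 hw.1
  have h3 := mem_ball_zero_iff.1 hw.2
  have h4 := norm_sub_norm_le (c (t, w)) w.1
  rw [mem_ball_zero_iff]
  linarith [h.small.1, h.small.2]

/-- **FL** -/
def FL (n : ℕ) : Prop := ∀ (G r : ℝ) (W : Cm n → Mx n), Ka (ball 0 1) W → 1 ≤ G → Gb G W → 0 < r →
  64 * G * r ≤ 1 → ∃ c T, Fl r W c T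

/-- the Jacobi field of the variation `ξ` of the initial data `w` -/
def Jf (c : ℝ × Cm n × Cm n → Cm n) (w ξ : Cm n × Cm n) (t : ℝ) : Cm n := fderiv ℝ c (t, w) (0, ξ)

/-- its covariant derivative -/
def Df (W : Cm n → Mx n) (c T : ℝ × Cm n × Cm n → Cm n) (w ξ : Cm n × Cm n) (t : ℝ) : Cm n :=
  Jf T w ξ t + ga W (c (t, w)) (T (t, w)) (Jf c w ξ t)

/-- **JAC**: the Jacobi equation -/
def JAC (n : ℕ) : Prop := ∀ (r : ℝ) (W : Cm n → Mx n) (c T : ℝ × Cm n × Cm n → Cm n),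
  Ka (ball 0 1) W → Fl r W c T → ∀ w ∈ Om n r, ∀ ξ : Cm n × Cm n,
    Jf c w ξ 0 = ξ.1 ∧ Df W c T w ξ 0 = ξ.2 + ga W w.1 w.2 ξ.1 ∧ ∀ t ∈ Icc (0 : ℝ) 1,
      HasDerivAt (Jf c w ξ) (Df W c T w ξ t - ga W (c (t, w)) (T (t, w)) (Jf c w ξ t)) t ∧
      HasDerivAt (Df W c T w ξ) (Lc W (c (t, w)) (T (t, w)) (Jf c w ξ t) -
        ga W (c (t, w)) (T (t, w)) (Df W c T w ξ t)) t

/-- parallel transport along a geodesic -/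
structure Par (ε : ℝ) (W : Cm n → Mx n) (c T : ℝ → Cm n) (P Q : ℝ → Mx n) : Prop where
  zero : P 0 = 1
  inv : ∀ t ∈ Icc (0 : ℝ) 1, P t * Q t = 1
  dP : ∀ t ∈ Icc (0 : ℝ) 1, ∀ a, HasDerivWithinAt (fun s => a ᵥ* P s)
    (-ga W (c t) (T t) (a ᵥ* P t)) (Icc 0 1) t
  dQ : ∀ t ∈ Icc (0 : ℝ) 1, ∀ (V : ℝ → Cm n) (V' : Cm n), HasDerivWithinAt V V' (Icc 0 1) t →
    HasDerivWithinAt (fun s => V s ᵥ* Q s) ((V' + ga W (c t) (T t) (V t)) ᵥ* Q t) (Icc 0 1) t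
  iso : ∀ t ∈ Icc (0 : ℝ) 1, ∀ a b, hf (W (c t)) (a ᵥ* P t) (b ᵥ* P t) = hf (W (c 0)) a b
  vel : ∀ t ∈ Icc (0 : ℝ) 1, T 0 ᵥ* P t = T t
  near : ∀ t ∈ Icc (0 : ℝ) 1, ∀ a, ‖a ᵥ* P t - a‖ ≤ 2 * ε * ‖a‖

/-- **PAR** -/
def PAR (n : ℕ) : Prop := ∀ (ε : ℝ) (U : Set (Cm n)) (W : Cm n → Mx n) (c T : ℝ → Cm n), Ka U W →
  IsGeo W U c T → 0 ≤ ε → ε ≤ 1 / 2 →
  (∀ t ∈ Icc (0 : ℝ) 1, ∀ a, ‖ga W (c t) (T t) a‖ ≤ ε * ‖a‖) → ∃ P Q, Par ε W c T P Q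

/-- **RIC** -/
def RIC (n : ℕ) : Prop := ∀ (ε m : ℝ) (W : Cm n → Mx n) (c T : ℝ → Cm n) (P Q : ℝ → Mx n)
  (V : Cm n), Ka (ball 0 1) W → IsGeo W (ball 0 1) c T → Par ε W c T P Q → T 0 ≠ 0 →
  RicB W (c 0) V √(qf (W (c 0)) (T 0)) m → ∀ t ∈ Icc (0 : ℝ) 1, qf (rho W (c t)) (V ᵥ* P t) ≤ m

/-- `j'' = L j` on `[0, 1]` -/
def Jac {E : Type} [NormedAddCommGroup E] [NormedSpace ℝ E] (L : ℝ → E → E) (j k : ℝ → E) : Prop :=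
  ∀ t ∈ Icc (0 : ℝ) 1, HasDerivWithinAt j (k t) (Icc 0 1) t ∧
    HasDerivWithinAt k (L t (j t)) (Icc 0 1) t

/-- **JAB**: estimates for the solutions of the Jacobi equation -/
def JAB : Prop := ∀ (E : Type) [NormedAddCommGroup E] [NormedSpace ℝ E] (g : E →L[ℝ] E →L[ℝ] ℝ)
  (L : ℝ → E → E) (κ μ : ℝ) (j k : ℝ → E), (∀ a b, g a b = g b a) → (∀ a, 0 ≤ g a a) → 0 ≤ κ →
  κ ≤ 1 / 4 → 0 ≤ μ → (∀ t ∈ Icc (0 : ℝ) 1, ∀ a b, g (L t a) b = g a (L t b)) →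
  (∀ t ∈ Icc (0 : ℝ) 1, ∀ a b, |g (L t a) b| ≤ κ * √(g a a) * √(g b b)) → Jac L j k →
  (∀ v, (∀ t ∈ Icc (0 : ℝ) 1, L t v = 0) → g (k 0) v = g (j 1 - j 0) v) ∧
  ((∀ t ∈ Icc (0 : ℝ) 1, ∀ b, |g (L t (j 0)) b| ≤ μ * √(g b b)) →
    √(g (k 0 - (j 1 - j 0)) (k 0 - (j 1 - j 0))) ≤ 2 * (μ + κ * √(g (k 0) (k 0))) ∧
    √(g (k 0 - (j 1 - j 0)) (k 0 - (j 1 - j 0))) ≤ 4 * (μ + κ * √(g (j 1 - j 0) (j 1 - j 0))) ∧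
    ∀ (β : ℝ) (j' k' : ℝ → E), Jac L j' k' →
      (∀ t ∈ Icc (0 : ℝ) 1, ∀ b, |g (L t (j' 0)) b| ≤ μ * √(g b b)) →
      g (j' 1 - j' 0) (j' 1 - j' 0) = g (j 1 - j 0) (j 1 - j 0) →
      (∀ t ∈ Icc (0 : ℝ) 1, |g (L t (j 0)) (j 0) + g (L t (j' 0)) (j' 0)| ≤ β) →
      |g (j 1) (k 1) - g (j 0) (k 0) + (g (j' 1) (k' 1) - g (j' 0) (k' 0)) -
          2 * g (j 1 - j 0) (j 1 - j 0)| ≤
        β + 200 * (μ ^ 2 + μ * √(g (j 1 - j 0) (j 1 - j 0)) + κ * g (j 1 - j 0) (j 1 - j 0)))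

/-- the Jacobi fields of the geodesic with initial data `w`, in a parallel frame -/
structure Jd (G s : ℝ) (W : Cm n → Mx n) (c T : ℝ × Cm n × Cm n → Cm n) (w : Cm n × Cm n)
    (P Q : Mx n) (L : ℝ → Cm n → Cm n) : Prop where
  inv : Q * P = 1
  near : ∀ a, ‖a ᵥ* P - a‖ ≤ 4 * G * ‖w.2‖ * ‖a‖
  iso : ∀ a b, gr (W w.1) (a ᵥ* Q) (b ᵥ* Q) = gr (W (c (1, w))) a b
  vel : T (1, w) ᵥ* Q = w.2
  jac : ∀ ξ : Cm n × Cm n, ∃ j k, Jac L j k ∧ j 0 = ξ.1 ∧ k 0 = ξ.2 + ga W w.1 w.2 ξ.1 ∧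
    j 1 = Jf c w ξ 1 ᵥ* Q ∧ k 1 = Df W c T w ξ 1 ᵥ* Q
  sym : ∀ t ∈ Icc (0 : ℝ) 1, ∀ a b, gr (W w.1) (L t a) b = gr (W w.1) a (L t b)
  ker : ∀ t ∈ Icc (0 : ℝ) 1, L t w.2 = 0
  bd : ∀ t ∈ Icc (0 : ℝ) 1, ∀ a b, |gr (W w.1) (L t a) b| ≤
    5 * qf (W w.1) w.2 / s ^ 2 * √(qf (W w.1) a) * √(qf (W w.1) b)
  ric : ∀ (V : Cm n) (m : ℝ), 0 ≤ m → RicB W w.1 V √(qf (W w.1) w.2) m → ∀ a : ℂ,
    ∀ t ∈ Icc (0 : ℝ) 1, (∀ b, |gr (W w.1) (L t (a • V)) b| ≤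
      5 * qf (W w.1) w.2 / s * (√m * ‖a‖) * √(qf (W w.1) b)) ∧
    |gr (W w.1) (L t (a • V)) (a • V) + gr (W w.1) (L t (I • a • V)) (I • a • V)| ≤
      2 * qf (W w.1) w.2 * (m * ‖a‖ ^ 2)

/-- **JT** -/
def JT (n : ℕ) : Prop := ∀ (C G r s : ℝ) (W : Cm n → Mx n) (c T : ℝ × Cm n × Cm n → Cm n),
  1 ≤ C → SK C s W → 1 ≤ G → Gb G W → 64 * G * r ≤ 1 → Fl r W c T →
  ∀ w ∈ Om n r, ∃ P Q L, Jd G s W c T w P Q L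

/-- **NEAR** -/
def NEAR (n : ℕ) : Prop := ∀ C G : ℝ, 1 ≤ C → 1 ≤ G → ∃ C' : ℝ, ∀ (r s : ℝ) (W : Cm n → Mx n)
  (c T : ℝ × Cm n × Cm n → Cm n) (w : Cm n × Cm n) (P Q : Mx n) (L : ℝ → Cm n → Cm n),
  SK C s W → Fl r W c T → 40 * C * r ≤ 1 → w ∈ Om n r → Jd G s W c T w P Q L →
  ∀ u, ‖fderiv ℝ (fun w => c (1, w)) w (0, u) - u‖ ≤ C' * ‖w.2‖ * ‖u‖

/-- the inverse of the exponential map -/
structure Lg (r : ℝ) (ex lg : Cm n × Cm n → Cm n) : Prop where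
  sm : ContDiffOn ℝ ∞ lg (ball 0 r ×ˢ ball 0 r)
  ex_lg : ∀ p ∈ ball (0 : Cm n) r, ∀ q ∈ ball (0 : Cm n) r,
    ex (p, lg (p, q)) = q ∧ ‖lg (p, q)‖ ≤ 2 * ‖q - p‖
  lg_ex : ∀ p ∈ ball (0 : Cm n) r, ∀ v ∈ ball (0 : Cm n) (8 * r), ex (p, v) ∈ ball (0 : Cm n) r →
    lg (p, ex (p, v)) = v

/-- **LG** -/
def LG (n : ℕ) : Prop := ∀ (r : ℝ) (ex : Cm n × Cm n → Cm n), 0 < r → ContDiff ℝ ∞ ex →
  (∀ p, ex (p, 0) = p) → (∀ w ∈ Om n r, ∀ u, ‖fderiv ℝ ex w (0, u) - u‖ ≤ 1 / 4 * ‖u‖) →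
  ∃ lg, Lg r ex lg

/-- the boundary terms of the second variation -/
def Hs (W : Cm n → Mx n) (c T : ℝ × Cm n × Cm n → Cm n) (lg : Cm n × Cm n → Cm n)
    (z ζ : Cm n × Cm n) : ℝ :=
  gr (W z.2) ζ.2 (Df W c T (z.1, lg z) (ζ.1, fderiv ℝ lg z ζ) 1) -
    gr (W z.1) ζ.1 (fderiv ℝ lg z ζ + ga W z.1 (lg z) ζ.1)

/-- **HES**: the first and second derivatives of the square of the distance -/
def HES (n : ℕ) : Prop := ∀ (r : ℝ) (W : Cm n → Mx n) (c T : ℝ × Cm n × Cm n → Cm n)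
  (lg : Cm n × Cm n → Cm n), Ka (ball 0 1) W → Fl r W c T → Lg r (fun w => c (1, w)) lg →
  (∀ z ∈ ball (0 : Cm n) r ×ˢ ball (0 : Cm n) r, ∀ ζ : Cm n × Cm n,
    Jf c (z.1, lg z) (ζ.1, fderiv ℝ lg z ζ) 1 = ζ.2 ∧ fderiv ℝ (dq W lg) z ζ =
      2 * gr (W z.1) (fderiv ℝ lg z ζ + ga W z.1 (lg z) ζ.1) (lg z)) ∧
  ((∀ z ∈ ball (0 : Cm n) r ×ˢ ball (0 : Cm n) r, ∀ ζ : Cm n × Cm n, fderiv ℝ (dq W lg) z ζ =
      2 * (gr (W z.2) ζ.2 (T (1, z.1, lg z)) - gr (W z.1) ζ.1 (lg z))) →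
    ∀ z ∈ ball (0 : Cm n) r ×ˢ ball (0 : Cm n) r, ∀ ζ : Cm n × Cm n,
      levi2 (dq W lg) z ζ = 2 * (Hs W c T lg z ζ + Hs W c T lg z (I • ζ)))

/-- **JF**: the field `jac` of `Geo` -/
def JF (n : ℕ) : Prop := ∀ (C G r s : ℝ) (W : Cm n → Mx n) (c T : ℝ × Cm n × Cm n → Cm n)
  (lg : Cm n × Cm n → Cm n), 1 ≤ C → SK C s W → Fl r W c T → 40 * C * r ≤ 1 →
  Lg r (fun w => c (1, w)) lg → (∀ w ∈ Om n r, ∃ P Q L, Jd G s W c T w P Q L) →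
  ∀ p ∈ ball (0 : Cm n) r, ∀ q ∈ ball (0 : Cm n) r, ∃ P : Mx n, P.det ≠ 0 ∧
    ∀ (V : Cm n) (m : ℝ), 0 ≤ m → RicB W p V √(dq W lg (p, q)) m → ∀ (a : ℂ) (x : Cm n),
      fderiv ℝ (dq W lg) (p, q) (a • V, x) = 2 * (hf (W p) (x ᵥ* P - a • V) (lg (p, q))).re ∧
      qf (W p) (fderiv ℝ lg (p, q) (a • V, x) + lg (p, q) ᵥ* Gm W p (a • V) - (x ᵥ* P - a • V)) ≤
        10000 * dq W lg (p, q) ^ 2 * (m * ‖a‖ ^ 2 / s ^ 2 + qf (W p) (x ᵥ* P - a • V) / s ^ 4) ∧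
      |levi2 (dq W lg) (p, q) (a • V, x) - 4 * qf (W p) (x ᵥ* P - a • V)| ≤
        10000 * dq W lg (p, q) * (m * ‖a‖ ^ 2 + qf (W p) (x ᵥ* P - a • V) / s ^ 2)

end Vale.Agent.P253W.Y.G
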