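import Vale.Agent.P253W.Y.G.Defs

/-!
# P253W, block Y, row JAC: the Jacobi equation
-/

open scoped ContDiff Topology Matrix
open Set Metric Filter
open Vale.Agent.P272.K (Cm)

noncomputable section

namespace Vale.Agent.P253W.Y.G

namespace Jc

variable {E F : Type} [NormedAddCommGroup E] [NormedSpace ℝ E] [NormedAddCommGroup F]
  [NormedSpace ℝ F] {f : ℝ × E → F} {t : ℝ} {w : E}

theorem hd_t (h : DifferentiableAt ℝ f (t, w)) :
    HasDerivAt (fun s => f (s, w)) (fderiv ℝ f (t, w) (1, 0)) t :=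
  h.hasFDerivAt.comp_hasDerivAt t ((hasDerivAt_id t).prodMk (hasDerivAt_const t w))

theorem hd_w (h : DifferentiableAt ℝ f (t, w)) : HasFDerivAt (fun w => f (t, w))
    ((fderiv ℝ f (t, w)).comp (ContinuousLinearMap.inr ℝ ℝ E)) w :=
  h.hasFDerivAt.comp w (hasFDerivAt_prodMk_right t w)

/-- the derivatives in `t` and in `w` commute -/
theorem swap (h : ContDiff ℝ ∞ f) {g : E → F} {g' : E →L[ℝ] F} (hg : HasFDerivAt g g' w)
    (e : ∀ᶠ w' in 𝓝 w, HasDerivAt (fun s => f (s, w')) (g w') t) (ξ : E) :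
    HasDerivAt (fun s => fderiv ℝ f (s, w) (0, ξ)) (g' ξ) t := by
  have d : DifferentiableAt ℝ (fderiv ℝ f) (t, w) :=
    ((h.fderiv_right (m := 1) (WithTop.coe_le_coe.2 le_top)).differentiable one_ne_zero) _
  have e1 : g =ᶠ[𝓝 w] fun w' => fderiv ℝ f (t, w') (1, 0) := e.mono fun w' hw =>
    hw.unique (hd_t (h.differentiable (by simp) _))
  have e2 := hg.unique (((hd_w d).clm_apply (hasFDerivAt_const (1, 0) w)).congr_of_eventuallyEq e1)
  refine ((hd_t d).clm_apply (hasDerivAt_const t (0, ξ))).congr_deriv ?_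
  have s := (h.contDiffAt (x := (t, w))).isSymmSndFDerivAt
    (by rw [minSmoothness_of_isRCLikeNormedField]; exact WithTop.coe_le_coe.2 le_top)
  simp [e2, s.eq (1, 0)]

end Jc

open Jc in
/-- **JAC** -/
theorem jac (n : ℕ) (h : CUR n) : JAC n := by
  intro r W c T K fl w hw ξ
  have dc := fl.c_sm.differentiable (by simp)
  have dT := fl.T_sm.differentiable (by simp)
  have J0 : Jf c w ξ 0 = ξ.1 := by
    have := (hd_w (dc (0, w))).unique (by simpa only [fl.c0] using hasFDerivAt_fst)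
    exact DFunLike.congr_fun this ξ
  have J1 : Jf T w ξ 0 = ξ.2 := by
    have := (hd_w (dT (0, w))).unique (by simpa only [fl.T0] using hasFDerivAt_snd)
    exact DFunLike.congr_fun this ξ
  refine ⟨J0, by rw [Df, J0, J1, fl.c0, fl.T0], fun t ht => ?_⟩
  have ev : ∀ᶠ w' in 𝓝 w, w' ∈ Om n r := (isOpen_ball.prod isOpen_ball).mem_nhds hw
  have hz : c (t, w) ∈ ball (0 : Cm n) 1 := ball_subset_ball (by norm_num) (fl.mem hw ht)
  have k := h _ W K _ hz
  have dG := fun X V => ((k.sm X V).differentiableAt (by simp)).hasFDerivAt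
  have d1 : HasDerivAt (Jf c w ξ) (Jf T w ξ t) t :=
    swap fl.c_sm (hd_w (dT (t, w))) (ev.mono fun w' hw' => (fl.ode w' hw' t ht).1) ξ
  have d2 := swap fl.T_sm (HasFDerivAt.comp w (f := fun w' => (c (t, w'), T (t, w'), T (t, w')))
    (dG _ _) ((hd_w (dc _)).prodMk ((hd_w (dT _)).prodMk (hd_w (dT _))))).neg
    (ev.mono fun w' hw' => (fl.ode w' hw' t ht).2) ξ
  have d3 := HasFDerivAt.comp_hasDerivAt t (f := fun s => (c (s, w), T (s, w), Jf c w ξ s))
    (dG _ _) ((fl.ode w hw t ht).1.prodMk ((fl.ode w hw t ht).2.prodMk d1))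
  refine ⟨d1.congr_deriv (add_sub_cancel_right _ _).symm, (d2.add d3).congr_deriv ?_⟩
  have e : Dg W (c (t, w)) (T (t, w)) (T (t, w)) (Jf c w ξ t) =
      Dg W (c (t, w)) (T (t, w)) (Jf c w ξ t) (T (t, w)) := by
    have : (fun y => ga W y (T (t, w)) (Jf c w ξ t)) =ᶠ[𝓝 (c (t, w))]
        fun y => ga W y (Jf c w ξ t) (T (t, w)) :=
      (isOpen_ball.eventually_mem hz).mono fun y hy => (h _ W K y hy).sym _ _
    rw [Dg, Dg, this.fderiv_eq]
  have cu := k.cur (Jf c w ξ t) (T (t, w)) (T (t, w))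
  change -fderiv ℝ _ _ (Jf c w ξ t, Jf T w ξ t, Jf T w ξ t) + _ = _
  rw [k.fd, k.fd, e, k.sym (-_), ← neg_one_smul ℂ (ga W _ _ _), k.smul, Lc, Df, k.add,
    k.sym (Jf T w ξ t), k.sym (T (t, w)) (Jf c w ξ t), k.ksym (T (t, w)) (T (t, w)), ← cu]
  module

end Vale.Agent.P253W.Y.G
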