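import Vale.Agent.P253W.Y.G.Asm
import Vale.Agent.P253W.Y.G.Jac

/-!
# P253W, block Y: the derivative of the exponential map
-/

open scoped ContDiff Topology Matrix ComplexOrder
open Set Metric Filter
open Vale.Agent.P272.K (Cm)

noncomputable section

namespace Vale.Agent.P253W.Y.G

variable {n : ℕ}

theorem near (n : ℕ) (h : JAB) : NEAR n := by
  intro C G hC hG
  refine ⟨8 * G + 10 * C ^ 2, fun r s W c T w P Q L hW hF hr hw hJ u => ?_⟩
  have hs := hW.s_pos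
  have r0 := hF.small.1
  have hp : w.1 ∈ ball (0 : Cm n) 1 := ball_subset_ball (by linarith [hF.small.2]) hw.1
  have hv := mem_ball_zero_iff.1 hw.2
  have v0 := norm_nonneg w.2
  have D0 := qf_nonneg hW.toKa hp w.2
  have k1 : 5 * qf (W w.1) w.2 / s ^ 2 ≤ 5 * C * ‖w.2‖ ^ 2 := by
    rw [div_le_iff₀ (by positivity)]
    nlinarith [hW.up _ hp w.2]
  have v1 : C * ‖w.2‖ ≤ 1 / 5 := by nlinarith
  have v2 : ‖w.2‖ ≤ 1 / 5 := by nlinarith
  have k2 : 5 * C * ‖w.2‖ ^ 2 ≤ 1 / 5 := by nlinarith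
  obtain ⟨j, k, hj, j0, k0, j1, -⟩ := hJ.jac (0, u)
  have a := ((h _ (gr (W w.1)) L _ 0 j k (gr_comm (hW.pos _ hp).1) (qf_nonneg hW.toKa hp)
    (by positivity) (by linarith) le_rfl hJ.sym hJ.bd hj).2 fun t ht b => by
      rw [hJ.sym t ht, j0]; simp).1
  simp only [j0, k0, ga, Matrix.zero_vecMul, add_zero, sub_zero, zero_add, gr_self] at a
  have e : fderiv ℝ (fun w => c (1, w)) w (0, u) = j 1 ᵥ* P := by
    rw [j1, Matrix.vecMul_vecMul, hJ.inv, Matrix.vecMul_one,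
      (Jc.hd_w (hF.c_sm.differentiable (by simp) (1, w))).fderiv]
    rfl
  have b : ‖j 1 - u‖ ≤ 10 * C ^ 2 * ‖w.2‖ ^ 2 * ‖u‖ := by
    rw [norm_sub_rev]
    refine abs_le_of_sq_le_sq' (le_of_mul_le_mul_left ?_ (pow_pos hs 2)) (by positivity) |>.2
    have a2 := (Real.sqrt_le_left (by positivity)).1 a
    rw [mul_pow, mul_pow, Real.sq_sqrt (qf_nonneg hW.toKa hp u)] at a2
    calc _ ≤ C * qf (W w.1) (u - j 1) := hW.lo _ hp _
      _ ≤ C * (2 ^ 2 * ((5 * C * ‖w.2‖ ^ 2) ^ 2 * (C * (s ^ 2 * ‖u‖ ^ 2)))) := by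
        gcongr C * ?_
        refine a2.trans ?_
        have := hW.up _ hp u
        have := qf_nonneg hW.toKa hp u
        gcongr
      _ = _ := by ring
  have u0 := norm_nonneg u
  have b1 : ‖j 1 - u‖ ≤ 10 * C ^ 2 * ‖w.2‖ * ‖u‖ := b.trans (by gcongr; nlinarith)
  have b2 : ‖j 1‖ ≤ 2 * ‖u‖ := by
    have h1 := norm_sub_norm_le (j 1) u
    have h2 : 10 * C ^ 2 * ‖w.2‖ ^ 2 ≤ 1 := by nlinarith [mul_nonneg (zero_le_one.trans hC) v0]
    nlinarith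
  rw [e]
  calc _ ≤ ‖j 1 ᵥ* P - j 1‖ + ‖j 1 - u‖ := norm_sub_le_norm_sub_add_norm_sub _ _ _
    _ ≤ 4 * G * ‖w.2‖ * (2 * ‖u‖) + 10 * C ^ 2 * ‖w.2‖ * ‖u‖ := by
      gcongr
      exact (hJ.near _).trans (by gcongr)
    _ = _ := by ring

end Vale.Agent.P253W.Y.G
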